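import Vale.Agent.P363.R.Sob.Mollify

/-! Density of smooth compactly supported functions in `H¹`-type spaces. -/

namespace Vale.Agent.P363.R.Sob

open MeasureTheory Filter Topology
open scoped ContDiff ENNReal Convolution

set_option linter.unusedSectionVars false

noncomputable section

variable {E : Type*} [NormedAddCommGroup E] [NormedSpace ℝ E] [FiniteDimensional ℝ E]
  [MeasurableSpace E] [BorelSpace E]
variable {F : Type*} [NormedAddCommGroup F] [NormedSpace ℝ F] [CompleteSpace F]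
variable {μ : Measure E} [μ.IsAddHaarMeasure] {v : E}

/-- the basic cutoff, `1` on the unit ball, `0` outside the ball of radius `2`. -/
def cut0 : ContDiffBump (0 : E) := ⟨1, 2, one_pos, one_lt_two⟩

/-- cutoff at scale `n + 1` -/
def cut (n : ℕ) (x : E) : ℝ := (cut0 : ContDiffBump (0 : E)) (((n : ℝ) + 1)⁻¹ • x)

theorem cut_test (n : ℕ) : Test (cut n : E → ℝ) := by
  constructor
  · exact (cut0 : ContDiffBump (0 : E)).contDiff.comp (contDiff_const.smul contDiff_id)
  · have h := (cut0 : ContDiffBump (0 : E)).hasCompactSupport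
    have hn : ((n : ℝ) + 1)⁻¹ ≠ 0 := by positivity
    exact h.comp_homeomorph (Homeomorph.smulOfNeZero _ hn)

theorem cut_nonneg (n : ℕ) (x : E) : 0 ≤ cut n x := (cut0 : ContDiffBump (0 : E)).nonneg

theorem cut_le_one (n : ℕ) (x : E) : cut n x ≤ 1 := (cut0 : ContDiffBump (0 : E)).le_one

theorem cut_eq_one (n : ℕ) (x : E) (h : ‖x‖ ≤ (n : ℝ) + 1) : cut n x = 1 := by
  apply ContDiffBump.one_of_mem_closedBall
  rw [mem_closedBall_zero_iff, norm_smul, norm_inv]
  have : (0 : ℝ) < (n : ℝ) + 1 := by positivity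
  rw [Real.norm_of_nonneg this.le]
  show _ ≤ (1 : ℝ)
  rw [inv_mul_le_iff₀ this]
  simpa using h

theorem fderiv_cut (n : ℕ) (x : E) :
    fderiv ℝ (cut n : E → ℝ) x v
      = ((n : ℝ) + 1)⁻¹ * fderiv ℝ (cut0 : ContDiffBump (0 : E)) (((n : ℝ) + 1)⁻¹ • x) v := by
  have hd : HasFDerivAt (cut0 : ContDiffBump (0 : E))
      (fderiv ℝ (cut0 : ContDiffBump (0 : E)) (((n : ℝ) + 1)⁻¹ • x)) (((n : ℝ) + 1)⁻¹ • x) :=
    ((cut0 : ContDiffBump (0 : E)).contDiff (n := 1).differentiable (by simp) _).hasFDerivAt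
  have h2 : HasFDerivAt (fun x : E => ((n : ℝ) + 1)⁻¹ • x)
      (((n : ℝ) + 1)⁻¹ • ContinuousLinearMap.id ℝ E) x :=
    (hasFDerivAt_id x).const_smul _
  have h3 := hd.comp x h2
  have e : (cut n : E → ℝ) = (cut0 : ContDiffBump (0 : E)) ∘ (fun x : E => ((n : ℝ) + 1)⁻¹ • x) :=
    rfl
  rw [e, h3.fderiv]
  simp

/-- bound for the derivative of the cutoff -/
theorem exists_cut_deriv_bound (v : E) : ∃ C : ℝ, 0 ≤ C ∧ ∀ (n : ℕ) (x : E),
    |fderiv ℝ (cut n : E → ℝ) x v| ≤ C * ((n : ℝ) + 1)⁻¹ := by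
  have ht : Test (fun x => fderiv ℝ (cut0 : ContDiffBump (0 : E)) x v) :=
    Test.fderiv ⟨(cut0 : ContDiffBump (0 : E)).contDiff,
      (cut0 : ContDiffBump (0 : E)).hasCompactSupport⟩ v
  obtain ⟨C, hC⟩ := ht.2.exists_bound_of_continuous ht.continuous
  refine ⟨C, (norm_nonneg _).trans (hC 0), fun n x => ?_⟩
  rw [fderiv_cut, abs_mul, mul_comm]
  have : (0 : ℝ) ≤ ((n : ℝ) + 1)⁻¹ := by positivity
  rw [abs_of_nonneg this]
  exact mul_le_mul_of_nonneg_right (hC _) this

/-- cutoffs converge in `L^p` -/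
theorem tendsto_cut_smul {p : ℝ≥0∞} (hp1 : 1 ≤ p) (hp : p ≠ ⊤) {f : E → F} (hf : MemLp f p μ) :
    Tendsto (fun n : ℕ => eLpNorm ((fun x => cut n x • f x) - f) p μ) atTop (𝓝 0) := by
  have hp0 : p ≠ 0 := (one_pos.trans_le hp1).ne'
  set q := p.toReal with hq
  have hq1 : 1 ≤ q := by
    rw [hq, ← ENNReal.toReal_one]; exact ENNReal.toReal_mono hp hp1
  have hq0 : 0 < q := by linarith
  have h1 : Tendsto (fun n : ℕ => ∫⁻ x, ‖((fun x => cut n x • f x) - f) x‖ₑ ^ q ∂μ) atTop
      (𝓝 (∫⁻ _, 0 ∂μ)) := by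
    refine tendsto_lintegral_of_dominated_convergence' (fun x => ‖f x‖ₑ ^ q) ?_ ?_ ?_ ?_
    · intro n
      have : AEStronglyMeasurable ((fun x => cut n x • f x) - f) μ :=
        (((cut_test n).continuous.aestronglyMeasurable).smul hf.1).sub hf.1
      exact this.enorm.pow_const q
    · intro n
      refine Eventually.of_forall fun x => ENNReal.rpow_le_rpow ?_ hq0.le
      rw [enorm_le_iff_norm_le]
      simp only [Pi.sub_apply]
      have e : cut n x • f x - f x = (cut n x - 1) • f x := by rw [sub_smul, one_smul]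
      rw [e, norm_smul]
      have : ‖cut n x - 1‖ ≤ 1 := by
        rw [Real.norm_eq_abs, abs_le]
        constructor <;> linarith [cut_nonneg n x, cut_le_one n x]
      calc _ ≤ 1 * ‖f x‖ := mul_le_mul_of_nonneg_right this (norm_nonneg _)
        _ = ‖f x‖ := one_mul _
    · have := hf.eLpNorm_lt_top
      rw [eLpNorm_eq_lintegral_rpow_enorm_toReal hp0 hp, ← hq] at this
      exact (ENNReal.rpow_lt_top_iff_of_pos (by positivity)).1 this |>.ne
    · refine Eventually.of_forall fun x => ?_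
      refine tendsto_const_nhds.congr' ?_
      obtain ⟨N, hN⟩ := exists_nat_ge ‖x‖
      filter_upwards [eventually_ge_atTop N] with n hn
      have : cut n x = 1 := cut_eq_one n x (by
        have : (N : ℝ) ≤ n := by exact_mod_cast hn
        linarith)
      simp [this, hq0]
  rw [lintegral_zero] at h1
  have h2 := h1.ennrpow_const (1 / q)
  rw [ENNReal.zero_rpow_of_pos (by positivity)] at h2
  refine h2.congr fun n => ?_
  rw [eLpNorm_eq_lintegral_rpow_enorm_toReal hp0 hp]

theorem IsWD.cut_smul {f g : E → F} {ψ : E → ℝ} (h : IsWD μ v f g) (hψ : ContDiff ℝ ∞ ψ)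
    (hf : LocallyIntegrable f μ) (hg : LocallyIntegrable g μ) :
    IsWD μ v (fun x => ψ x • f x) (fun x => (fderiv ℝ ψ x v) • f x + ψ x • g x) := by
  intro φ hφ
  have hψd : Differentiable ℝ ψ := hψ.differentiable (by simp)
  have t1 : Test (fun x => φ x * ψ x) := hφ.mul hψ
  have e1 : ∀ x, fderiv ℝ (fun x => φ x * ψ x) x v
      = fderiv ℝ φ x v * ψ x + φ x * fderiv ℝ ψ x v := by
    intro x
    rw [fderiv_fun_mul (hφ.differentiable x) (hψd x)]
    simp only [add_apply, smul_apply, smul_eq_mul]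
    ring
  have h1 := h _ t1
  have hdψ : ContDiff ℝ ∞ (fun x => fderiv ℝ ψ x v) := by
    have h1 : ContDiff ℝ ∞ (fderiv ℝ ψ) := hψ.fderiv_right (by simp)
    exact h1.clm_apply contDiff_const
  have i1 : Integrable (fun x => (fderiv ℝ φ x v * ψ x) • f x) μ :=
    ((hφ.fderiv v).mul hψ).integrable_smul hf
  have i2 : Integrable (fun x => (φ x * fderiv ℝ ψ x v) • f x) μ :=
    (hφ.mul hdψ).integrable_smul hf
  have i3 : Integrable (fun x => (φ x * ψ x) • g x) μ := t1.integrable_smul hg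
  simp only [e1, add_smul] at h1
  rw [integral_add i1 i2] at h1
  simp only [smul_add, ← mul_smul]
  rw [integral_add i2 i3]
  rw [neg_add, ← h1]
  abel

/-- S5. density -/
theorem exists_test_approx {ι : Type*} [Finite ι] {b : ι → E} {f : E → F} {g : ι → E → F}
    (hf : MemLp f 2 μ) (hg : ∀ i, MemLp (g i) 2 μ) (h : ∀ i, IsWD μ (b i) f (g i)) :
    ∃ fn : ℕ → E → F, (∀ n, ContDiff ℝ ∞ (fn n)) ∧ (∀ n, HasCompactSupport (fn n)) ∧
      Tendsto (fun n => eLpNorm (fn n - f) 2 μ) atTop (𝓝 0) ∧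
      ∀ i, Tendsto (fun n => eLpNorm ((fun x => fderiv ℝ (fn n) x (b i)) - g i) 2 μ)
        atTop (𝓝 0) := by
  have := Fintype.ofFinite ι
  have hfl : LocallyIntegrable f μ := hf.locallyIntegrable (by norm_num)
  have hgl : ∀ i, LocallyIntegrable (g i) μ := fun i => (hg i).locallyIntegrable (by norm_num)
  -- the cutoff functions
  set F1 : ℕ → E → F := fun n x => cut n x • f x with hF1
  set G1 : ι → ℕ → E → F := fun i n x => (fderiv ℝ (cut n : E → ℝ) x (b i)) • f x + cut n x • g i x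
    with hG1
  have w1 : ∀ i n, IsWD μ (b i) (F1 n) (G1 i n) := fun i n =>
    (h i).cut_smul (cut_test n).contDiff hfl (hgl i)
  have m1 : ∀ n, MemLp (F1 n) 2 μ := by
    intro n
    refine hf.of_le_mul (c := 1) (((cut_test n).continuous.aestronglyMeasurable).smul hf.1) ?_
    refine Eventually.of_forall fun x => ?_
    rw [hF1]; simp only
    rw [norm_smul]
    refine mul_le_mul_of_nonneg_right ?_ (norm_nonneg _)
    rw [Real.norm_of_nonneg (cut_nonneg n x)]; exact cut_le_one n x
  have m2 : ∀ i n, MemLp (fun x => (fderiv ℝ (cut n : E → ℝ) x (b i)) • f x) 2 μ := by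
    intro i n
    obtain ⟨C, hC0, hC⟩ := exists_cut_deriv_bound (b i)
    refine hf.of_le_mul (c := C * ((n : ℝ) + 1)⁻¹)
      ((((cut_test n).fderiv (b i)).continuous.aestronglyMeasurable).smul hf.1) ?_
    refine Eventually.of_forall fun x => ?_
    rw [norm_smul]
    exact mul_le_mul_of_nonneg_right (hC n x) (norm_nonneg _)
  have m3 : ∀ i n, MemLp (fun x => cut n x • g i x) 2 μ := by
    intro i n
    refine (hg i).of_le_mul (c := 1)
      (((cut_test n).continuous.aestronglyMeasurable).smul (hg i).1) ?_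
    refine Eventually.of_forall fun x => ?_
    rw [norm_smul]
    refine mul_le_mul_of_nonneg_right ?_ (norm_nonneg _)
    rw [Real.norm_of_nonneg (cut_nonneg n x)]; exact cut_le_one n x
  have m4 : ∀ i n, MemLp (G1 i n) 2 μ := fun i n => (m2 i n).add (m3 i n)
  -- convergence of the cutoffs
  have c1 : Tendsto (fun n => eLpNorm (F1 n - f) 2 μ) atTop (𝓝 0) :=
    tendsto_cut_smul (by norm_num) (by norm_num) hf
  have c2 : ∀ i, Tendsto (fun n => eLpNorm (G1 i n - g i) 2 μ) atTop (𝓝 0) := by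
    intro i
    obtain ⟨C, hC0, hC⟩ := exists_cut_deriv_bound (b i)
    have a1 := tendsto_cut_smul (μ := μ) (p := 2) (by norm_num) (by norm_num) (hg i)
    have a2 : Tendsto (fun n : ℕ => eLpNorm (fun x => (fderiv ℝ (cut n : E → ℝ) x (b i)) • f x) 2 μ)
        atTop (𝓝 0) := by
      have a3 : ∀ n : ℕ, eLpNorm (fun x => (fderiv ℝ (cut n : E → ℝ) x (b i)) • f x) 2 μ
          ≤ ENNReal.ofReal (C * ((n : ℝ) + 1)⁻¹) * eLpNorm f 2 μ := by
        intro n
        refine eLpNorm_le_mul_eLpNorm_of_ae_le_mul (Eventually.of_forall fun x => ?_) 2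
        rw [norm_smul]
        exact mul_le_mul_of_nonneg_right (hC n x) (norm_nonneg _)
      have a4 : Tendsto (fun n : ℕ => ENNReal.ofReal (C * ((n : ℝ) + 1)⁻¹) * eLpNorm f 2 μ)
          atTop (𝓝 (ENNReal.ofReal (C * 0) * eLpNorm f 2 μ)) := by
        refine ENNReal.Tendsto.mul_const ?_ (Or.inr hf.2.ne)
        refine ENNReal.tendsto_ofReal (Tendsto.const_mul C ?_)
        have := tendsto_one_div_add_atTop_nhds_zero_nat (𝕜 := ℝ)
        simpa [one_div] using this
      rw [mul_zero, ENNReal.ofReal_zero, zero_mul] at a4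
      exact tendsto_of_tendsto_of_tendsto_of_le_of_le tendsto_const_nhds a4
        (fun _ => zero_le) a3
    have a5 := a2.add a1
    rw [add_zero] at a5
    refine tendsto_of_tendsto_of_tendsto_of_le_of_le tendsto_const_nhds a5
        (fun _ => zero_le) fun n => ?_
    have e : G1 i n - g i = (fun x => (fderiv ℝ (cut n : E → ℝ) x (b i)) • f x)
        + ((fun x => cut n x • g i x) - g i) := by
      ext x; simp only [hG1, Pi.sub_apply, Pi.add_apply]; abel
    rw [e]
    exact eLpNorm_add_le (m2 i n).1 ((m3 i n).1.sub (hg i).1) (by norm_num)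
  -- choose a mollification for each n
  have c3 : ∀ n : ℕ, ∃ k : ℕ, eLpNorm (moll μ (stdBump k) (F1 n) - F1 n) 2 μ
        ≤ ENNReal.ofReal (((n : ℝ) + 1)⁻¹) ∧
      ∀ i, eLpNorm (moll μ (stdBump k) (G1 i n) - G1 i n) 2 μ
        ≤ ENNReal.ofReal (((n : ℝ) + 1)⁻¹) := by
    intro n
    have hε : (0 : ℝ≥0∞) < ENNReal.ofReal (((n : ℝ) + 1)⁻¹) := by
      rw [ENNReal.ofReal_pos]; positivity
    have b1 := (ENNReal.tendsto_nhds_zero.1 (tendsto_moll_std (by norm_num) (m1 n))) _ hε
    have b2 : ∀ i, ∀ᶠ k in atTop, eLpNorm (moll μ (stdBump k) (G1 i n) - G1 i n) 2 μ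
        ≤ ENNReal.ofReal (((n : ℝ) + 1)⁻¹) := fun i =>
      (ENNReal.tendsto_nhds_zero.1 (tendsto_moll_std (by norm_num) (m4 i n))) _ hε
    exact (b1.and (eventually_all.2 b2)).exists
  choose k hk using c3
  have lF1 : ∀ n, LocallyIntegrable (F1 n) μ := fun n => (m1 n).locallyIntegrable (by norm_num)
  have hsmall : Tendsto (fun n : ℕ => ENNReal.ofReal (((n : ℝ) + 1)⁻¹)) atTop (𝓝 0) := by
    have := tendsto_one_div_add_atTop_nhds_zero_nat (𝕜 := ℝ)
    have h2 := ENNReal.tendsto_ofReal this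
    simpa [one_div] using h2
  refine ⟨fun n => moll μ (stdBump (k n)) (F1 n), fun n => moll_contDiff _ (lF1 n), fun n => ?_,
    ?_, fun i => ?_⟩
  · exact moll_hasCompactSupport _ ((cut_test n).2.smul_right)
  · have s1 := hsmall.add c1
    rw [add_zero] at s1
    refine tendsto_of_tendsto_of_tendsto_of_le_of_le tendsto_const_nhds s1
        (fun _ => zero_le) fun n => ?_
    have e : moll μ (stdBump (k n)) (F1 n) - f
        = (moll μ (stdBump (k n)) (F1 n) - F1 n) + (F1 n - f) := by abel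
    calc eLpNorm (moll μ (stdBump (k n)) (F1 n) - f) 2 μ
        ≤ eLpNorm (moll μ (stdBump (k n)) (F1 n) - F1 n) 2 μ + eLpNorm (F1 n - f) 2 μ := by
          rw [e]
          exact eLpNorm_add_le ((moll_contDiff _ (lF1 n)).continuous.aestronglyMeasurable.sub
            (m1 n).1) ((m1 n).1.sub hf.1) (by norm_num)
      _ ≤ _ := by
        have := (hk n).1
        exact add_le_add_left this _
  · have s1 := hsmall.add (c2 i)
    rw [add_zero] at s1
    refine tendsto_of_tendsto_of_tendsto_of_le_of_le tendsto_const_nhds s1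
        (fun _ => zero_le) fun n => ?_
    have e0 : (fun x => fderiv ℝ (moll μ (stdBump (k n)) (F1 n)) x (b i))
        = moll μ (stdBump (k n)) (G1 i n) := by
      ext x; exact fderiv_moll _ (w1 i n) (lF1 n) x
    have e : moll μ (stdBump (k n)) (G1 i n) - g i
        = (moll μ (stdBump (k n)) (G1 i n) - G1 i n) + (G1 i n - g i) := by abel
    have lG : LocallyIntegrable (G1 i n) μ := (m4 i n).locallyIntegrable (by norm_num)
    calc eLpNorm ((fun x => fderiv ℝ (moll μ (stdBump (k n)) (F1 n)) x (b i)) - g i) 2 μ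
        ≤ eLpNorm (moll μ (stdBump (k n)) (G1 i n) - G1 i n) 2 μ
          + eLpNorm (G1 i n - g i) 2 μ := by
          rw [e0, e]
          exact eLpNorm_add_le ((moll_contDiff _ lG).continuous.aestronglyMeasurable.sub
            (m4 i n).1) ((m4 i n).1.sub (hg i).1) (by norm_num)
      _ ≤ _ := by
        have := (hk n).2 i
        exact add_le_add_left this _

end

end Vale.Agent.P363.R.Sob
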