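import Vale.Agent.P363.R.Sob.S01
import Vale.Agent.P363.R.Sob.Density
import Mathlib.MeasureTheory.Function.Holder

/-! Sobolev toolkit S6 (bilinear product rule) and S13 (integration by parts). -/

namespace Vale.Agent.P363.R.Sob

open MeasureTheory Filter Topology
open scoped ContDiff ENNReal

set_option linter.unusedSectionVars false

noncomputable section

section Lim

variable {E : Type*} [MeasurableSpace E] {μ : Measure E}
variable {F₁ F₂ G : Type*} [NormedAddCommGroup F₁] [NormedSpace ℝ F₁]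
    [NormedAddCommGroup F₂] [NormedSpace ℝ F₂] [NormedAddCommGroup G] [NormedSpace ℝ G]

/-- `L²`-convergence of one factor implies `L¹` convergence of the integral of a bilinear
expression (left factor moving). -/
theorem tendsto_integral_bilin_left {ι : Type*} {l : Filter ι}
    (B : F₁ →L[ℝ] F₂ →L[ℝ] G) {f : E → F₁} {fn : ι → E → F₁} {h : E → F₂}
    (hf : MemLp f 2 μ) (hfn : ∀ n, MemLp (fn n) 2 μ) (hh : MemLp h 2 μ)
    (cf : Tendsto (fun n => eLpNorm (fn n - f) 2 μ) l (𝓝 0)) :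
    Tendsto (fun n => ∫ x, B (fn n x) (h x) ∂μ) l (𝓝 (∫ x, B (f x) (h x) ∂μ)) := by
  have I : ∀ {u : E → F₁}, MemLp u 2 μ → Integrable (fun x => B (u x) (h x)) μ := fun hu =>
    memLp_one_iff_integrable.1 (B.memLp_of_bilin 1 hu hh)
  refine tendsto_integral_of_L1 (fun x => B (f x) (h x)) (I hf).1
    (Eventually.of_forall fun n => I (hfn n)) ?_
  have hb : ∀ n, ∫⁻ x, ‖B (fn n x) (h x) - B (f x) (h x)‖ₑ ∂μ ≤
      ‖B‖₊ * eLpNorm (fn n - f) 2 μ * eLpNorm h 2 μ := by
    intro n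
    have h1 := eLpNorm_le_eLpNorm_mul_eLpNorm_of_nnnorm (p := 2) (q := 2) (r := 1)
      ((hfn n).sub hf).1 hh.1 (fun a b => B a b) ‖B‖₊
      (Eventually.of_forall fun x => B.le_opNorm₂ _ _)
    rw [eLpNorm_one_eq_lintegral_enorm] at h1
    simpa using h1
  have h0 : Tendsto (fun n => ‖B‖₊ * eLpNorm (fn n - f) 2 μ * eLpNorm h 2 μ) l (𝓝 0) := by
    have h1 := ENNReal.Tendsto.const_mul (a := (‖B‖₊ : ℝ≥0∞)) cf (Or.inr ENNReal.coe_ne_top)
    have h2 := ENNReal.Tendsto.mul_const (b := eLpNorm h 2 μ) h1 (Or.inr hh.2.ne)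
    simpa using h2
  exact tendsto_of_tendsto_of_tendsto_of_le_of_le tendsto_const_nhds h0 (fun _ => zero_le) hb

/-- `L²`-convergence of one factor implies `L¹` convergence of the integral of a bilinear
expression (right factor moving). -/
theorem tendsto_integral_bilin_right {ι : Type*} {l : Filter ι}
    (B : F₁ →L[ℝ] F₂ →L[ℝ] G) {f : E → F₁} {h : E → F₂} {hn : ι → E → F₂}
    (hf : MemLp f 2 μ) (hhn : ∀ n, MemLp (hn n) 2 μ) (hh : MemLp h 2 μ)
    (ch : Tendsto (fun n => eLpNorm (hn n - h) 2 μ) l (𝓝 0)) :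
    Tendsto (fun n => ∫ x, B (f x) (hn n x) ∂μ) l (𝓝 (∫ x, B (f x) (h x) ∂μ)) :=
  tendsto_integral_bilin_left B.flip hh hhn hf ch

end Lim

variable {E : Type*} [NormedAddCommGroup E] [NormedSpace ℝ E] [FiniteDimensional ℝ E]
  [MeasurableSpace E] [BorelSpace E]
variable {μ : Measure E} [μ.IsAddHaarMeasure] {v : E}

/-- The approximating sequence for one direction, in a convenient form. -/
theorem IsWD.exists_approx {F : Type*} [NormedAddCommGroup F] [NormedSpace ℝ F] [CompleteSpace F]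
    {f f' : E → F} (hf : MemLp f 2 μ) (hf' : MemLp f' 2 μ) (W : IsWD μ v f f') :
    ∃ fn : ℕ → E → F, (∀ n, ContDiff ℝ ∞ (fn n)) ∧ (∀ n, HasCompactSupport (fn n)) ∧
      (∀ n, MemLp (fn n) 2 μ) ∧ (∀ n, MemLp (fun x => fderiv ℝ (fn n) x v) 2 μ) ∧
      Tendsto (fun n => eLpNorm (fn n - f) 2 μ) atTop (𝓝 0) ∧
      Tendsto (fun n => eLpNorm ((fun x => fderiv ℝ (fn n) x v) - f') 2 μ) atTop (𝓝 0) := by
  obtain ⟨fn, h1, h2, h3, h4⟩ := exists_test_approx (ι := Unit) (b := fun _ => v)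
    (g := fun _ => f') hf (fun _ => hf') (fun _ => W)
  refine ⟨fn, h1, h2, fun n => (h1 n).continuous.memLp_of_hasCompactSupport (h2 n), fun n => ?_,
    h3, h4 ()⟩
  have hc : Continuous (fun x => fderiv ℝ (fn n) x v) :=
    ((h1 n).continuous_fderiv (by simp)).clm_apply continuous_const
  exact hc.memLp_of_hasCompactSupport ((h2 n).fderiv_apply (𝕜 := ℝ) v)

/-- S13. integration by parts against a function with weak derivative (global `H¹ × H¹`). -/
theorem IsWD.integral_bilin {F₁ F₂ G : Type*} [NormedAddCommGroup F₁] [NormedSpace ℝ F₁]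
    [CompleteSpace F₁] [NormedAddCommGroup F₂] [NormedSpace ℝ F₂] [CompleteSpace F₂]
    [NormedAddCommGroup G] [NormedSpace ℝ G] [CompleteSpace G]
    (B : F₁ →L[ℝ] F₂ →L[ℝ] G) {f f' : E → F₁} {h h' : E → F₂}
    (hf : MemLp f 2 μ) (hf' : MemLp f' 2 μ) (hh : MemLp h 2 μ) (hh' : MemLp h' 2 μ)
    (Wf : IsWD μ v f f') (Wh : IsWD μ v h h') :
    ∫ x, B (f' x) (h x) ∂μ = - ∫ x, B (f x) (h' x) ∂μ := by
  obtain ⟨fn, f1, f2, f3, f4, f5, f6⟩ := IsWD.exists_approx hf hf' Wf
  obtain ⟨hn, h1, h2, h3, h4, h5, h6⟩ := IsWD.exists_approx hh hh' Wh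
  have I : ∀ {u : E → F₁} {w : E → F₂}, MemLp u 2 μ → MemLp w 2 μ →
      Integrable (fun x => B (u x) (w x)) μ := fun hu hw =>
    memLp_one_iff_integrable.1 (B.memLp_of_bilin 1 hu hw)
  -- smooth case
  have e0 : ∀ n m, ∫ x, B (fderiv ℝ (fn n) x v) (hn m x) ∂μ =
      - ∫ x, B (fn n x) (fderiv ℝ (hn m) x v) ∂μ := by
    intro n m
    have key := integral_bilinear_hasLineDerivAt_right_eq_neg_left_of_integrable (μ := μ) (v := v)
      (B := B) (f := fn n) (f' := fun x => fderiv ℝ (fn n) x v)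
      (g := hn m) (g' := fun x => fderiv ℝ (hn m) x v)
      (I (f4 n) (h3 m)) (I (f3 n) (h4 m)) (I (f3 n) (h3 m))
      (fun x _ => ((f1 n).differentiable (by simp) x).hasFDerivAt.hasLineDerivAt v)
      (fun x _ => ((h1 m).differentiable (by simp) x).hasFDerivAt.hasLineDerivAt v)
    rw [key, neg_neg]
  -- first limit
  have e1 : ∀ m, ∫ x, B (f' x) (hn m x) ∂μ = - ∫ x, B (f x) (fderiv ℝ (hn m) x v) ∂μ := by
    intro m
    have t1 := tendsto_integral_bilin_left B hf' f4 (h3 m) f6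
    have t2 := (tendsto_integral_bilin_left B hf f3 (h4 m) f5).neg
    exact tendsto_nhds_unique t1 (t2.congr fun n => (e0 n m).symm)
  have t1 := tendsto_integral_bilin_right B hf' h3 hh h5
  have t2 := (tendsto_integral_bilin_right B hf h4 hh' h6).neg
  exact tendsto_nhds_unique t1 (t2.congr fun m => (e1 m).symm)

/-- S6. bilinear product rule: `f, h` with `L²` weak derivatives, `B` continuous bilinear. -/
theorem IsWD.bilin {F₁ F₂ G : Type*} [NormedAddCommGroup F₁] [NormedSpace ℝ F₁] [CompleteSpace F₁]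
    [NormedAddCommGroup F₂] [NormedSpace ℝ F₂] [CompleteSpace F₂]
    [NormedAddCommGroup G] [NormedSpace ℝ G] [CompleteSpace G]
    (B : F₁ →L[ℝ] F₂ →L[ℝ] G) {f f' : E → F₁} {h h' : E → F₂}
    (hf : MemLp f 2 μ) (hf' : MemLp f' 2 μ) (hh : MemLp h 2 μ) (hh' : MemLp h' 2 μ)
    (Wf : IsWD μ v f f') (Wh : IsWD μ v h h') :
    IsWD μ v (fun x => B (f x) (h x)) (fun x => B (f' x) (h x) + B (f x) (h' x)) := by
  intro φ hφ
  -- the function `φ f` has weak derivative `∂φ f + φ f'`; integrate by parts against `h`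
  have hfl : LocallyIntegrable f μ := hf.locallyIntegrable (by norm_num)
  have hfl' : LocallyIntegrable f' μ := hf'.locallyIntegrable (by norm_num)
  have W := Wf.smooth_smul hφ.contDiff hfl hfl'
  have B1 : ∀ {u : E → F₁} {ψ : E → ℝ}, Test ψ → MemLp u 2 μ →
      MemLp (fun x => ψ x • u x) 2 μ := by
    intro u ψ hψ hu
    obtain ⟨C, hC⟩ := hψ.2.exists_bound_of_continuous hψ.continuous
    exact hu.of_le_mul (c := C) (hψ.continuous.aestronglyMeasurable.smul hu.1)
      (Eventually.of_forall fun x => by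
        rw [norm_smul]; exact mul_le_mul_of_nonneg_right (hC x) (norm_nonneg _))
  have m1 := B1 hφ hf
  have m2 := B1 (hφ.fderiv v) hf
  have m3 := B1 hφ hf'
  have I : ∀ {u : E → F₁} {w : E → F₂}, MemLp u 2 μ → MemLp w 2 μ →
      Integrable (fun x => B (u x) (w x)) μ := fun hu hw =>
    memLp_one_iff_integrable.1 (B.memLp_of_bilin 1 hu hw)
  have key := IsWD.integral_bilin B m1 (m2.add m3) hh hh' W Wh
  have e1 : ∀ x, B (((fun x => (fderiv ℝ φ x v) • f x) + fun x => φ x • f' x) x) (h x) =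
      (fderiv ℝ φ x v) • B (f x) (h x) + φ x • B (f' x) (h x) := by
    intro x; simp
  have e2 : ∀ x, B (φ x • f x) (h' x) = φ x • B (f x) (h' x) := by
    intro x; simp
  have i1 : Integrable (fun x => (fderiv ℝ φ x v) • B (f x) (h x)) μ := by
    have := I m2 hh; simpa using this
  have i2 : Integrable (fun x => φ x • B (f' x) (h x)) μ := by
    have := I m3 hh; simpa using this
  have i3 : Integrable (fun x => φ x • B (f x) (h' x)) μ := by
    have := I m1 hh'; simpa using this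
  have key' : ∫ x, ((fderiv ℝ φ x v) • B (f x) (h x) + φ x • B (f' x) (h x)) ∂μ =
      - ∫ x, φ x • B (f x) (h' x) ∂μ := by
    rw [← integral_congr_ae (Eventually.of_forall e1), key,
      integral_congr_ae (Eventually.of_forall e2)]
  rw [integral_add i1 i2] at key'
  simp only [smul_add]
  rw [integral_add i2 i3, neg_add, ← key']
  abel

end

end Vale.Agent.P363.R.Sob
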