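import Vale.Agent.P363.R.Sob.S01

/-! Sobolev toolkit S14: locality and gluing. -/

namespace Vale.Agent.P363.R.Sob

open MeasureTheory Filter Topology
open scoped ContDiff ENNReal Manifold

set_option linter.unusedSectionVars false

noncomputable section

variable {E : Type*} [NormedAddCommGroup E] [NormedSpace ℝ E] [FiniteDimensional ℝ E]
  [MeasurableSpace E] [BorelSpace E]
variable {F : Type*} [NormedAddCommGroup F] [NormedSpace ℝ F] [CompleteSpace F]
variable {μ : Measure E} [μ.IsAddHaarMeasure] {v : E}

/-- smooth cutoff: equal to one near the compact set `K`, with compact support inside the open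
set `U`. -/
theorem exists_cutoff {K U : Set E} (hK : IsCompact K) (hU : IsOpen U) (hKU : K ⊆ U) :
    ∃ η : E → ℝ, ContDiff ℝ ∞ η ∧ HasCompactSupport η ∧ tsupport η ⊆ U ∧
      (∀ᶠ x in 𝓝ˢ K, η x = 1) ∧ ∀ x, η x ∈ Set.Icc (0 : ℝ) 1 := by
  obtain ⟨L, hL, hKL, hLU⟩ := exists_compact_between hK hU hKU
  obtain ⟨η, h1, h0, hη⟩ := exists_contMDiffMap_one_nhds_of_subset_interior (n := ⊤) 𝓘(ℝ, E)
    hK.isClosed hKL
  have hs : tsupport (η : E → ℝ) ⊆ L := by
    refine closure_minimal (fun x hx => ?_) hL.isClosed
    by_contra hxL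
    exact hx (h0 x hxL)
  exact ⟨η, η.contMDiff.contDiff, HasCompactSupport.of_support_subset_isCompact hL
    (subset_closure.trans hs), hs.trans hLU, h1, hη⟩

/-- If `f` vanishes a.e. on an open set, so does its weak derivative. -/
theorem IsWD.ae_eq_zero_on {f g : E → F} {V : Set E} (h : IsWD μ v f g)
    (hg : LocallyIntegrable g μ) (hV : IsOpen V) (hz : ∀ᵐ x ∂μ, x ∈ V → f x = 0) :
    ∀ᵐ x ∂μ, x ∈ V → g x = 0 := by
  refine IsOpen.ae_eq_zero_of_integral_contDiff_smul_eq_zero hV (hg.locallyIntegrableOn V)
    fun φ hφ hc hs => ?_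
  have e : ∫ x, (fderiv ℝ φ x v) • f x ∂μ = 0 := by
    have : (fun x => (fderiv ℝ φ x v) • f x) =ᵐ[μ] fun _ => (0 : F) := by
      filter_upwards [hz] with x hx
      by_cases hxV : x ∈ V
      · rw [hx hxV, smul_zero]
      · have : fderiv ℝ φ x = 0 := by
          by_contra hne
          exact hxV (hs (support_fderiv_subset ℝ hne))
        rw [this]; simp
    rw [integral_congr_ae this, integral_zero]
  have := h φ ⟨hφ, hc⟩
  rw [e] at this
  exact neg_eq_zero.1 this.symm

/-- S14. locality / gluing: if `f = 0` a.e. on a neighbourhood of the boundary of `U`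
(here: on an open set `V` with `closure U ⊆ U ∪ V`), then `1_U f` has weak derivative `1_U g`. -/
theorem IsWD.indicator {f g : E → F} {U V : Set E} (h : IsWD μ v f g)
    (hf : LocallyIntegrable f μ) (hg : LocallyIntegrable g μ) (hU : IsOpen U) (hV : IsOpen V)
    (hUV : closure U ⊆ U ∪ V) (hz : ∀ᵐ x ∂μ, x ∈ V → f x = 0) :
    IsWD μ v (U.indicator f) (U.indicator g) := by
  classical
  intro φ hφ
  have hzg := h.ae_eq_zero_on hg hV hz
  have hC : IsCompact (tsupport φ ∩ (closure U \ V)) := by
    refine hφ.2.isCompact.inter_right ?_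
    rw [Set.sdiff_eq]
    exact isClosed_closure.inter hV.isClosed_compl
  have hCU : tsupport φ ∩ (closure U \ V) ⊆ U := by
    rintro x ⟨-, hx, hxV⟩
    exact (hUV hx).resolve_right hxV
  obtain ⟨η, hη, hηc, hηU, hη1, -⟩ := exists_cutoff hC hU hCU
  have key := h.smooth_smul hη hf hg φ hφ
  have hnear : ∀ x ∈ tsupport φ ∩ (closure U \ V), η =ᶠ[𝓝 x] fun _ => (1 : ℝ) := fun x hx =>
    (eventually_nhdsSet_iff_forall.1 hη1) x hx
  have e1 : ∀ᵐ x ∂μ, (fderiv ℝ φ x v) • (U.indicator f x) = (fderiv ℝ φ x v) • η x • f x := by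
    filter_upwards [hz] with x hx
    by_cases hφx : x ∈ tsupport φ
    · by_cases hxV : x ∈ V
      · rw [Set.indicator_apply, hx hxV]; simp
      · by_cases hxU : x ∈ U
        · rw [Set.indicator_of_mem hxU, (hnear x ⟨hφx, subset_closure hxU, hxV⟩).self_of_nhds]
          simp
        · have : η x = 0 := by
            by_contra hne
            exact hxU (hηU (subset_closure hne))
          rw [Set.indicator_of_notMem hxU, this]; simp
    · have : fderiv ℝ φ x = 0 := by
        by_contra hne
        exact hφx (support_fderiv_subset ℝ hne)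
      rw [this]; simp
  have e2 : ∀ᵐ x ∂μ, φ x • (U.indicator g x) =
      φ x • ((fderiv ℝ η x v) • f x + η x • g x) := by
    filter_upwards [hz, hzg] with x hx hx'
    by_cases hφx : x ∈ tsupport φ
    · by_cases hxV : x ∈ V
      · rw [Set.indicator_apply, hx hxV, hx' hxV]; simp
      · by_cases hxU : x ∈ closure U
        · have hn := hnear x ⟨hφx, hxU, hxV⟩
          have hxU' : x ∈ U := (hUV hxU).resolve_right hxV
          rw [Set.indicator_of_mem hxU', hn.self_of_nhds, hn.fderiv_eq]
          simp
        · have h0 : η x = 0 := by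
            by_contra hne
            exact hxU (subset_closure (hηU (subset_closure hne)))
          have h0' : fderiv ℝ η x = 0 := by
            by_contra hne
            exact hxU (subset_closure (hηU (support_fderiv_subset ℝ hne)))
          rw [Set.indicator_of_notMem (fun hxU' => hxU (subset_closure hxU')), h0, h0']
          simp
    · rw [image_eq_zero_of_notMem_tsupport hφx]; simp
  rw [integral_congr_ae e1, integral_congr_ae e2]
  exact key

end

end Vale.Agent.P363.R.Sob
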