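import Vale.Agent.P363.R.Sob.Density

/-! Sobolev toolkit, S16: Hardy's inequality for a linear projection onto `ℝ³`. -/

namespace Vale.Agent.P363.R.Sob

open MeasureTheory Filter Topology
open scoped ContDiff ENNReal

set_option linter.unusedSectionVars false

noncomputable section

variable {E : Type*} [NormedAddCommGroup E] [NormedSpace ℝ E] [FiniteDimensional ℝ E]
  [MeasurableSpace E] [BorelSpace E]
variable {F : Type*} [NormedAddCommGroup F] [InnerProductSpace ℝ F] [CompleteSpace F]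
variable {μ : Measure E} [μ.IsAddHaarMeasure] {v : E}

/-- the components of the Hardy vector field -/
def hardyV (p : E →L[ℝ] Stmt.R3) (a : Stmt.R3) (ε : ℝ) (k : Fin 3) (x : E) : ℝ :=
  (p x - a) k / (‖p x - a‖ ^ 2 + ε)

/-- the regularised Hardy weight -/
def hardyW (p : E →L[ℝ] Stmt.R3) (a : Stmt.R3) (ε : ℝ) (x : E) : ℝ :=
  ‖p x - a‖ ^ 2 / (‖p x - a‖ ^ 2 + ε) ^ 2

theorem hardyV_contDiff (p : E →L[ℝ] Stmt.R3) (a : Stmt.R3) {ε : ℝ} (hε : 0 < ε) (k : Fin 3) :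
    ContDiff ℝ ∞ (hardyV p a ε k) := by
  unfold hardyV
  have h1 : ContDiff ℝ ∞ (fun x : E => p x - a) := p.contDiff.sub contDiff_const
  have h2 : ContDiff ℝ ∞ (fun x : E => (p x - a) k) :=
    (EuclideanSpace.proj k : Stmt.R3 →L[ℝ] ℝ).contDiff.comp h1
  refine h2.div ((h1.norm_sq ℝ).add contDiff_const) (fun x => ?_)
  positivity

theorem hardyV_sq (p : E →L[ℝ] Stmt.R3) (a : Stmt.R3) (ε : ℝ) (x : E) :
    ∑ k, hardyV p a ε k x ^ 2 = hardyW p a ε x := by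
  unfold hardyV hardyW
  simp only [div_pow, ← Finset.sum_div]
  rw [EuclideanSpace.norm_sq_eq]
  simp only [Real.norm_eq_abs, sq_abs]

theorem hardyV_fderiv (p : E →L[ℝ] Stmt.R3) (a : Stmt.R3) {ε : ℝ} (hε : 0 < ε) (k : Fin 3) (b : E)
    (hb : p b = EuclideanSpace.single k 1) (x : E) :
    fderiv ℝ (hardyV p a ε k) x b =
      1 / (‖p x - a‖ ^ 2 + ε) - 2 * ((p x - a) k) ^ 2 / (‖p x - a‖ ^ 2 + ε) ^ 2 := by
  have hpos : 0 < ‖p x - a‖ ^ 2 + ε := by positivity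
  have hd : HasDerivAt (fun t : ℝ => hardyV p a ε k (x + t • b))
      (1 / (‖p x - a‖ ^ 2 + ε) - 2 * ((p x - a) k) ^ 2 / (‖p x - a‖ ^ 2 + ε) ^ 2) 0 := by
    have hc : ∀ t : ℝ, p (x + t • b) - a = (p x - a) + t • EuclideanSpace.single k (1 : ℝ) := by
      intro t; rw [map_add, map_smul, hb]; abel
    have hk : ∀ t : ℝ, (p (x + t • b) - a) k = (p x - a) k + t := by
      intro t; rw [hc]; simp
    have hn : ∀ t : ℝ, ‖p (x + t • b) - a‖ ^ 2 = ‖p x - a‖ ^ 2 + 2 * t * (p x - a) k + t ^ 2 := by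
      intro t
      rw [hc, @norm_add_sq_real, norm_smul, inner_smul_right]
      have : inner ℝ (p x - a) (EuclideanSpace.single k (1 : ℝ)) = (p x - a) k := by
        rw [EuclideanSpace.inner_single_right]; simp
      rw [this]
      have h1 : ‖(EuclideanSpace.single k (1 : ℝ) : Stmt.R3)‖ = 1 := by simp
      rw [h1, mul_one, Real.norm_eq_abs, sq_abs]
      ring
    have e : (fun t : ℝ => hardyV p a ε k (x + t • b)) = fun t =>
        ((p x - a) k + t) / (‖p x - a‖ ^ 2 + 2 * t * (p x - a) k + t ^ 2 + ε) := by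
      funext t; unfold hardyV; rw [hk, hn]
    rw [e]
    have h1 : HasDerivAt (fun t : ℝ => (p x - a) k + t) 1 0 := by
      simpa using (hasDerivAt_id (0 : ℝ)).const_add ((p x - a) k)
    have h2 : HasDerivAt (fun t : ℝ => ‖p x - a‖ ^ 2 + 2 * t * (p x - a) k + t ^ 2 + ε)
        (2 * (p x - a) k) 0 := by
      have h3 : HasDerivAt (fun t : ℝ => 2 * t * (p x - a) k) (2 * (p x - a) k) 0 := by
        simpa using ((hasDerivAt_id (0 : ℝ)).const_mul 2).mul_const ((p x - a) k)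
      have h4 : HasDerivAt (fun t : ℝ => t ^ 2) 0 0 := by
        simpa using (hasDerivAt_pow 2 (0 : ℝ))
      simpa using ((h3.const_add (‖p x - a‖ ^ 2)).add h4).add_const ε
    have h5 := h1.div h2 (by simpa using hpos.ne')
    refine h5.congr_deriv ?_
    have e2 : ‖p x - a‖ ^ 2 + 2 * (0 : ℝ) * (p x - a) k + (0 : ℝ) ^ 2 + ε = ‖p x - a‖ ^ 2 + ε := by
      ring
    rw [e2]
    have := hpos.ne'
    field_simp
    ring
  have hf : HasFDerivAt (hardyV p a ε k) (fderiv ℝ (hardyV p a ε k) x) x :=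
    ((hardyV_contDiff p a hε k).differentiable (by simp) x).hasFDerivAt
  have h6 := (hf.hasLineDerivAt b)
  exact HasDerivAt.unique h6 hd

theorem hardyV_div (p : E →L[ℝ] Stmt.R3) (a : Stmt.R3) {ε : ℝ} (hε : 0 < ε) (b : Fin 3 → E)
    (hb : ∀ k, p (b k) = EuclideanSpace.single k 1) (x : E) :
    hardyW p a ε x ≤ ∑ k, fderiv ℝ (hardyV p a ε k) x (b k) := by
  have hpos : 0 < ‖p x - a‖ ^ 2 + ε := by positivity
  have e : ∑ k, fderiv ℝ (hardyV p a ε k) x (b k) =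
      (‖p x - a‖ ^ 2 + 3 * ε) / (‖p x - a‖ ^ 2 + ε) ^ 2 := by
    have : ∀ k, fderiv ℝ (hardyV p a ε k) x (b k) =
        1 / (‖p x - a‖ ^ 2 + ε) - 2 * ((p x - a) k) ^ 2 / (‖p x - a‖ ^ 2 + ε) ^ 2 := fun k =>
      hardyV_fderiv p a hε k (b k) (hb k) x
    have hs : ∑ k, ((p x - a) k) ^ 2 = ‖p x - a‖ ^ 2 := by
      rw [EuclideanSpace.norm_sq_eq]; simp only [Real.norm_eq_abs, sq_abs]
    simp only [this, Finset.sum_sub_distrib, ← Finset.sum_div, ← Finset.mul_sum, hs]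
    simp only [Finset.sum_const, Finset.card_univ, Fintype.card_fin, nsmul_eq_mul]
    field_simp
    push_cast
    ring
  rw [e]
  unfold hardyW
  gcongr
  linarith

theorem hardyW_nonneg (p : E →L[ℝ] Stmt.R3) (a : Stmt.R3) (ε : ℝ) (x : E) :
    0 ≤ hardyW p a ε x := by unfold hardyW; positivity

theorem hardyW_le (p : E →L[ℝ] Stmt.R3) (a : Stmt.R3) {ε : ℝ} (hε : 0 < ε) (x : E) :
    hardyW p a ε x ≤ 1 / ε := by
  unfold hardyW
  have hpos : 0 < ‖p x - a‖ ^ 2 + ε := by positivity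
  rw [div_le_div_iff₀ (by positivity) hε]
  nlinarith [sq_nonneg (‖p x - a‖ ^ 2), sq_nonneg ‖p x - a‖]

theorem hardyW_continuous (p : E →L[ℝ] Stmt.R3) (a : Stmt.R3) {ε : ℝ} (hε : 0 < ε) :
    Continuous (hardyW p a ε) := by
  unfold hardyW
  have h1 : Continuous (fun x : E => ‖p x - a‖ ^ 2) := by fun_prop
  refine h1.div ((h1.add continuous_const).pow 2) (fun x => ?_)
  positivity

theorem hardy_pointwise (p : E →L[ℝ] Stmt.R3) (a : Stmt.R3) (ε : ℝ) (x : E) (y : F)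
    (z : Fin 3 → F) :
    -∑ k, hardyV p a ε k x * (2 * inner ℝ y (z k)) ≤
      (1 / 2) * (hardyW p a ε x * ‖y‖ ^ 2) + 2 * ∑ k, ‖z k‖ ^ 2 := by
  rw [← hardyV_sq p a ε x, Finset.sum_mul, Finset.mul_sum, Finset.mul_sum,
    ← Finset.sum_neg_distrib, ← Finset.sum_add_distrib]
  refine Finset.sum_le_sum (fun k _ => ?_)
  have hi := abs_real_inner_le_norm y (z k)
  generalize hardyV p a ε k x = V
  have h1 : -(V * (2 * inner ℝ y (z k))) ≤ |V| * (2 * (‖y‖ * ‖z k‖)) := by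
    calc -(V * (2 * inner ℝ y (z k)))
        ≤ |V * (2 * inner ℝ y (z k))| := neg_le_abs _
      _ = |V| * (2 * |inner ℝ y (z k)|) := by rw [abs_mul, abs_mul, abs_two]
      _ ≤ _ := by gcongr
  refine h1.trans ?_
  rw [← sq_abs V]
  nlinarith [sq_nonneg (|V| * ‖y‖ - 2 * ‖z k‖)]

theorem hardy_aux (p : E →L[ℝ] Stmt.R3) (a : Stmt.R3) {ε : ℝ} (hε : 0 < ε) (b : Fin 3 → E)
    (hb : ∀ k, p (b k) = EuclideanSpace.single k 1) {u : E → ℝ} (hu1 : ContDiff ℝ ∞ u)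
    (hu2 : HasCompactSupport u) (hu0 : ∀ x, 0 ≤ u x) :
    ∫ x, hardyW p a ε x * u x ∂μ ≤ ∫ x, -∑ k, hardyV p a ε k x * fderiv ℝ u x (b k) ∂μ := by
  have hV : ∀ k, ContDiff ℝ ∞ (hardyV p a ε k) := hardyV_contDiff p a hε
  have hVd : ∀ k, Continuous (fun x => fderiv ℝ (hardyV p a ε k) x (b k)) := fun k =>
    ((hV k).continuous_fderiv (by simp)).clm_apply continuous_const
  have i1 : ∀ k, Integrable (fun x => fderiv ℝ (hardyV p a ε k) x (b k) * u x) μ := fun k =>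
    ((hVd k).mul hu1.continuous).integrable_of_hasCompactSupport hu2.mul_left
  have i2 : ∀ k, Integrable (fun x => hardyV p a ε k x * fderiv ℝ u x (b k)) μ := fun k =>
    ((hV k).continuous.mul ((hu1.continuous_fderiv (by simp)).clm_apply
      continuous_const)).integrable_of_hasCompactSupport
      (hu2.fderiv_apply (𝕜 := ℝ) (b k)).mul_left
  have i3 : ∀ k, Integrable (fun x => hardyV p a ε k x * u x) μ := fun k =>
    ((hV k).continuous.mul hu1.continuous).integrable_of_hasCompactSupport hu2.mul_left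
  have i4 : Integrable (fun x => hardyW p a ε x * u x) μ :=
    ((hardyW_continuous p a hε).mul hu1.continuous).integrable_of_hasCompactSupport hu2.mul_left
  have ibp : ∀ k, ∫ x, hardyV p a ε k x * fderiv ℝ u x (b k) ∂μ =
      - ∫ x, fderiv ℝ (hardyV p a ε k) x (b k) * u x ∂μ := fun k =>
    integral_mul_fderiv_eq_neg_fderiv_mul_of_integrable (i1 k) (i2 k) (i3 k)
      (fun x _ => (hV k).differentiable (by simp) x) (fun x _ => hu1.differentiable (by simp) x)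
  have m1 : ∫ x, hardyW p a ε x * u x ∂μ ≤
      ∫ x, ∑ k, fderiv ℝ (hardyV p a ε k) x (b k) * u x ∂μ := by
    refine integral_mono i4 (integrable_finsetSum _ (fun k _ => i1 k)) (fun x => ?_)
    simp only [← Finset.sum_mul]
    exact mul_le_mul_of_nonneg_right (hardyV_div p a hε b hb x) (hu0 x)
  refine m1.trans (le_of_eq ?_)
  rw [integral_neg, integral_finsetSum _ (fun k _ => i1 k), integral_finsetSum _ (fun k _ => i2 k),
    ← Finset.sum_neg_distrib]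
  exact Finset.sum_congr rfl (fun k _ => by rw [ibp k, neg_neg])

/-- Hardy for smooth compactly supported functions, regularised weight. -/
theorem hardy_aux2 (p : E →L[ℝ] Stmt.R3) (a : Stmt.R3) {ε : ℝ} (hε : 0 < ε) (b : Fin 3 → E)
    (hb : ∀ k, p (b k) = EuclideanSpace.single k 1) {u : E → ℝ} (hu1 : ContDiff ℝ ∞ u)
    (hu2 : HasCompactSupport u) {f : E → F} {D : Fin 3 → E → F} (huf : ∀ x, u x = ‖f x‖ ^ 2)
    (hud : ∀ k x, fderiv ℝ u x (b k) = 2 * inner ℝ (f x) (D k x))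
    (i5 : ∀ k, Integrable (fun x => ‖D k x‖ ^ 2) μ) :
    ∫ x, hardyW p a ε x * u x ∂μ ≤ 4 * ∑ k, ∫ x, ‖D k x‖ ^ 2 ∂μ := by
  have i4 : Integrable (fun x => hardyW p a ε x * u x) μ :=
    ((hardyW_continuous p a hε).mul hu1.continuous).integrable_of_hasCompactSupport hu2.mul_left
  have i6 : Integrable (fun x => -∑ k, hardyV p a ε k x * fderiv ℝ u x (b k)) μ := by
    refine (integrable_finsetSum _ (fun k _ => ?_)).neg
    exact ((hardyV_contDiff p a hε k).continuous.mul ((hu1.continuous_fderiv (by simp)).clm_apply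
      continuous_const)).integrable_of_hasCompactSupport
      (hu2.fderiv_apply (𝕜 := ℝ) (b k)).mul_left
  have m1 := hardy_aux (μ := μ) p a hε b hb hu1 hu2 (fun x => by rw [huf]; positivity)
  have i7 : Integrable (fun x => (1 / 2) * (hardyW p a ε x * u x)) μ := i4.const_mul _
  have i8 : Integrable (fun x => 2 * ∑ k, ‖D k x‖ ^ 2) μ :=
    (integrable_finsetSum _ (fun k _ => i5 k)).const_mul _
  have m3 : ∫ x, -∑ k, hardyV p a ε k x * fderiv ℝ u x (b k) ∂μ ≤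
      ∫ x, ((1 / 2) * (hardyW p a ε x * u x) + 2 * ∑ k, ‖D k x‖ ^ 2) ∂μ := by
    refine integral_mono i6 (i7.add i8) (fun x => ?_)
    simp only [hud, huf]
    exact hardy_pointwise p a ε x (f x) (fun k => D k x)
  have m4 : ∫ x, ((1 / 2) * (hardyW p a ε x * u x) + 2 * ∑ k, ‖D k x‖ ^ 2) ∂μ =
      (1 / 2) * ∫ x, hardyW p a ε x * u x ∂μ + 2 * ∑ k, ∫ x, ‖D k x‖ ^ 2 ∂μ := by
    rw [integral_add i7 i8, integral_const_mul, integral_const_mul,
      integral_finsetSum _ (fun k _ => i5 k)]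
  have m5 := m1.trans (m3.trans m4.le)
  linarith

theorem hardy_test (p : E →L[ℝ] Stmt.R3) (a : Stmt.R3) {ε : ℝ} (hε : 0 < ε) (b : Fin 3 → E)
    (hb : ∀ k, p (b k) = EuclideanSpace.single k 1) {f : E → F} (hf : ContDiff ℝ ∞ f)
    (hc : HasCompactSupport f) :
    ∫ x, hardyW p a ε x * ‖f x‖ ^ 2 ∂μ ≤ 4 * ∑ k, ∫ x, ‖fderiv ℝ f x (b k)‖ ^ 2 ∂μ := by
  have hu1 : ContDiff ℝ ∞ (fun x => ‖f x‖ ^ 2) := hf.norm_sq ℝ
  have hu2 : HasCompactSupport (fun x => ‖f x‖ ^ 2) :=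
    hc.comp_left (g := fun y : F => ‖y‖ ^ 2) (by simp)
  have hud : ∀ k x, fderiv ℝ (fun x => ‖f x‖ ^ 2) x (b k) =
      2 * inner ℝ (f x) (fderiv ℝ f x (b k)) := by
    intro k x
    have h1 : HasFDerivAt f (fderiv ℝ f x) x := (hf.differentiable (by simp) x).hasFDerivAt
    rw [h1.norm_sq.fderiv]
    simp
  have i5 : ∀ k, Integrable (fun x => ‖fderiv ℝ f x (b k)‖ ^ 2) μ := by
    intro k
    have h1 : Continuous (fun x => fderiv ℝ f x (b k)) :=
      (hf.continuous_fderiv (by simp)).clm_apply continuous_const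
    have h2 : HasCompactSupport (fun x => fderiv ℝ f x (b k)) := hc.fderiv_apply (𝕜 := ℝ) (b k)
    have h3 : HasCompactSupport (fun x => ‖fderiv ℝ f x (b k)‖ ^ 2) := by
      refine h2.mono' (fun x hx => ?_)
      refine subset_tsupport _ ?_
      intro h0
      apply hx
      simp only [h0, norm_zero, ne_eq, OfNat.ofNat_ne_zero, not_false_eq_true, zero_pow]
    exact (h1.norm.pow 2).integrable_of_hasCompactSupport h3
  exact hardy_aux2 p a hε b hb hu1 hu2 (f := f) (D := fun k x => fderiv ℝ f x (b k))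
    (fun _ => rfl) hud i5

/-- a weighted `L²` triangle inequality -/
theorem integral_sq_le_of_approx {c : E → ℝ} {f f' : E → F} (hc : Continuous c) {C : ℝ}
    (hc0 : ∀ x, 0 ≤ c x) (hcC : ∀ x, c x ≤ C) (hf : MemLp f 2 μ) (hf' : MemLp f' 2 μ) {η : ℝ}
    (hη : 0 < η) :
    ∫ x, c x * ‖f x‖ ^ 2 ∂μ ≤ (1 + η) * ∫ x, c x * ‖f' x‖ ^ 2 ∂μ +
      (1 + 1 / η) * C * ∫ x, ‖(f' - f) x‖ ^ 2 ∂μ := by
  have hcb : ∀ᵐ x ∂μ, ‖c x‖ ≤ C := Eventually.of_forall fun x => by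
    rw [Real.norm_eq_abs, abs_of_nonneg (hc0 x)]; exact hcC x
  have j : ∀ {h : E → F}, MemLp h 2 μ → Integrable (fun x => ‖h x‖ ^ 2) μ := fun hh =>
    hh.integrable_norm_pow (by norm_num)
  have j1 : Integrable (fun x => c x * ‖f x‖ ^ 2) μ :=
    (j hf).bdd_mul hc.aestronglyMeasurable hcb
  have j2 : Integrable (fun x => c x * ‖f' x‖ ^ 2) μ :=
    (j hf').bdd_mul hc.aestronglyMeasurable hcb
  have j3 : Integrable (fun x => ‖(f' - f) x‖ ^ 2) μ := j (hf'.sub hf)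
  rw [← integral_const_mul, ← integral_const_mul, ← integral_add (j2.const_mul _) (j3.const_mul _)]
  refine integral_mono j1 ((j2.const_mul _).add (j3.const_mul _)) (fun x => ?_)
  simp only [Pi.sub_apply]
  have h1 : ‖f x‖ ^ 2 ≤ (1 + η) * ‖f' x‖ ^ 2 + (1 + 1 / η) * ‖f' x - f x‖ ^ 2 := by
    have h2 : ‖f x‖ ≤ ‖f' x‖ + ‖f' x - f x‖ := by
      have := norm_sub_le (f' x) (f' x - f x)
      simpa using this
    have h3 : ‖f x‖ ^ 2 ≤ (‖f' x‖ + ‖f' x - f x‖) ^ 2 := by gcongr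
    refine h3.trans ?_
    have h4 : 0 ≤ (η * ‖f' x‖ - ‖f' x - f x‖) ^ 2 / η := by positivity
    have h5 : (η * ‖f' x‖ - ‖f' x - f x‖) ^ 2 / η =
        η * ‖f' x‖ ^ 2 - 2 * ‖f' x‖ * ‖f' x - f x‖ + (1 / η) * ‖f' x - f x‖ ^ 2 := by
      field_simp
      ring
    nlinarith
  have h6 : 0 ≤ (1 + 1 / η) * ‖f' x - f x‖ ^ 2 := by positivity
  calc c x * ‖f x‖ ^ 2 ≤ c x * ((1 + η) * ‖f' x‖ ^ 2 + (1 + 1 / η) * ‖f' x - f x‖ ^ 2) :=
        mul_le_mul_of_nonneg_left h1 (hc0 x)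
    _ = (1 + η) * (c x * ‖f' x‖ ^ 2) + c x * ((1 + 1 / η) * ‖f' x - f x‖ ^ 2) := by ring
    _ ≤ (1 + η) * (c x * ‖f' x‖ ^ 2) + C * ((1 + 1 / η) * ‖f' x - f x‖ ^ 2) := by
        gcongr; exact hcC x
    _ = _ := by ring

theorem tendsto_integral_sq_of_eLpNorm {ι : Type*} {l : Filter ι} {fn : ι → E → F} {f : E → F}
    (h : ∀ n, MemLp (fn n - f) 2 μ)
    (ht : Tendsto (fun n => eLpNorm (fn n - f) 2 μ) l (𝓝 0)) :
    Tendsto (fun n => ∫ x, ‖(fn n - f) x‖ ^ 2 ∂μ) l (𝓝 0) := by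
  have e : ∀ n, ∫ x, ‖(fn n - f) x‖ ^ 2 ∂μ = ((eLpNorm (fn n - f) 2 μ).toReal) ^ 2 := by
    intro n
    have h1 := (h n).eLpNorm_eq_integral_rpow_norm (by norm_num) (by norm_num)
    have h0 : 0 ≤ ∫ x, ‖(fn n - f) x‖ ^ 2 ∂μ := integral_nonneg (fun x => by positivity)
    simp only [ENNReal.toReal_ofNat, Real.rpow_ofNat] at h1
    rw [h1, ENNReal.toReal_ofReal (Real.rpow_nonneg h0 _), ← Real.rpow_natCast,
      ← Real.rpow_mul h0]
    norm_num
  simp only [e]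
  have h2 : Tendsto (fun n => (eLpNorm (fn n - f) 2 μ).toReal) l (𝓝 0) := by
    have := (ENNReal.tendsto_toReal (a := 0) (by simp)).comp ht
    simpa [Function.comp_def] using this
  simpa using h2.pow 2

/-- Hardy, regularised weight, for `L²` functions with `L²` weak derivatives. -/
theorem hardy_reg (p : E →L[ℝ] Stmt.R3) (a : Stmt.R3) {ε : ℝ} (hε : 0 < ε) (b : Fin 3 → E)
    (hb : ∀ k, p (b k) = EuclideanSpace.single k 1) {f : E → F} {g : Fin 3 → E → F}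
    (hf : MemLp f 2 μ) (hg : ∀ k, MemLp (g k) 2 μ) (h : ∀ k, IsWD μ (b k) f (g k)) :
    ∫ x, hardyW p a ε x * ‖f x‖ ^ 2 ∂μ ≤ 4 * ∑ k, ∫ x, ‖g k x‖ ^ 2 ∂μ := by
  obtain ⟨fn, h1, h2, h3, h4⟩ := exists_test_approx hf hg h
  have m1 : ∀ n, MemLp (fn n) 2 μ := fun n =>
    (h1 n).continuous.memLp_of_hasCompactSupport (h2 n)
  have m2 : ∀ n k, MemLp (fun x => fderiv ℝ (fn n) x (b k)) 2 μ := fun n k =>
    (((h1 n).continuous_fderiv (by simp)).clm_apply continuous_const).memLp_of_hasCompactSupport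
      ((h2 n).fderiv_apply (𝕜 := ℝ) (b k))
  have t1 := tendsto_integral_sq_of_eLpNorm (fun n => (m1 n).sub hf) h3
  have t2 := fun k => tendsto_integral_sq_of_eLpNorm (fun n => (m2 n k).sub (hg k)) (h4 k)
  set A := ∫ x, hardyW p a ε x * ‖f x‖ ^ 2 ∂μ with hA
  set B := ∑ k, ∫ x, ‖g k x‖ ^ 2 ∂μ with hB
  have key : ∀ η : ℝ, 0 < η → A ≤ (1 + η) * (4 * ((1 + η) * B)) := by
    intro η hη
    have lim : Tendsto (fun n => (1 + η) * (4 * ((1 + η) * B + (1 + 1 / η) * 1 *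
        ∑ k, ∫ x, ‖((fun x => fderiv ℝ (fn n) x (b k)) - g k) x‖ ^ 2 ∂μ)) +
        (1 + 1 / η) * (1 / ε) * ∫ x, ‖(fn n - f) x‖ ^ 2 ∂μ) atTop
        (𝓝 ((1 + η) * (4 * ((1 + η) * B + (1 + 1 / η) * 1 * ∑ k : Fin 3, (0 : ℝ))) +
        (1 + 1 / η) * (1 / ε) * 0)) := by
      refine Tendsto.add (Tendsto.const_mul _ (Tendsto.const_mul _ (Tendsto.const_add _
        (Tendsto.const_mul _ (tendsto_finsetSum _ (fun k _ => t2 k)))))) (t1.const_mul _)
    have lim' : (1 + η) * (4 * ((1 + η) * B + (1 + 1 / η) * 1 * ∑ k : Fin 3, (0 : ℝ))) +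
        (1 + 1 / η) * (1 / ε) * 0 = (1 + η) * (4 * ((1 + η) * B)) := by simp
    rw [lim'] at lim
    refine ge_of_tendsto' lim (fun n => ?_)
    have q1 := integral_sq_le_of_approx (μ := μ) (hardyW_continuous p a hε)
      (hardyW_nonneg p a ε) (hardyW_le p a hε) hf (m1 n) hη
    have q2 := hardy_test (μ := μ) p a hε b hb (h1 n) (h2 n)
    have q3 : ∀ k, ∫ x, ‖fderiv ℝ (fn n) x (b k)‖ ^ 2 ∂μ ≤ (1 + η) * ∫ x, ‖g k x‖ ^ 2 ∂μ +
        (1 + 1 / η) * 1 * ∫ x, ‖((fun x => fderiv ℝ (fn n) x (b k)) - g k) x‖ ^ 2 ∂μ := by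
      intro k
      have := integral_sq_le_of_approx (μ := μ) (c := fun _ => (1 : ℝ)) continuous_const
        (C := 1) (fun _ => zero_le_one) (fun _ => le_rfl) (m2 n k) (hg k) hη
      have e : ∫ x, ‖(g k - fun x => fderiv ℝ (fn n) x (b k)) x‖ ^ 2 ∂μ =
          ∫ x, ‖((fun x => fderiv ℝ (fn n) x (b k)) - g k) x‖ ^ 2 ∂μ := by
        simp only [Pi.sub_apply, norm_sub_rev]
      rw [e] at this
      simpa using this
    have q4 : ∑ k, ∫ x, ‖fderiv ℝ (fn n) x (b k)‖ ^ 2 ∂μ ≤ (1 + η) * B + (1 + 1 / η) * 1 *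
        ∑ k, ∫ x, ‖((fun x => fderiv ℝ (fn n) x (b k)) - g k) x‖ ^ 2 ∂μ := by
      rw [hB, Finset.mul_sum, Finset.mul_sum, ← Finset.sum_add_distrib]
      exact Finset.sum_le_sum (fun k _ => q3 k)
    have q5 : 0 ≤ 1 + η := by positivity
    calc A ≤ (1 + η) * ∫ x, hardyW p a ε x * ‖fn n x‖ ^ 2 ∂μ +
          (1 + 1 / η) * (1 / ε) * ∫ x, ‖(fn n - f) x‖ ^ 2 ∂μ := q1
      _ ≤ _ := by
        refine add_le_add ?_ le_rfl
        refine mul_le_mul_of_nonneg_left (q2.trans ?_) q5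
        exact mul_le_mul_of_nonneg_left q4 (by norm_num)
  have lim0 : Tendsto (fun η : ℝ => (1 + η) * (4 * ((1 + η) * B))) (𝓝[>] 0)
      (𝓝 ((1 + 0) * (4 * ((1 + 0) * B)))) := by
    refine Tendsto.mono_left ?_ nhdsWithin_le_nhds
    exact Continuous.tendsto (by fun_prop) 0
  have := ge_of_tendsto lim0 (by
    filter_upwards [self_mem_nhdsWithin] with η hη using key η hη)
  simpa using this

theorem hardyW_tendsto (p : E →L[ℝ] Stmt.R3) (a : Stmt.R3) (x : E) :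
    Tendsto (fun n : ℕ => hardyW p a (1 / ((n : ℝ) + 1)) x) atTop (𝓝 (1 / ‖p x - a‖ ^ 2)) := by
  unfold hardyW
  by_cases h0 : ‖p x - a‖ = 0
  · simp [h0]
  · have h1 : Tendsto (fun n : ℕ => ‖p x - a‖ ^ 2 / (‖p x - a‖ ^ 2 + 1 / ((n : ℝ) + 1)) ^ 2) atTop
        (𝓝 (‖p x - a‖ ^ 2 / (‖p x - a‖ ^ 2 + 0) ^ 2)) := by
      refine Tendsto.div tendsto_const_nhds ((tendsto_const_nhds.add
        tendsto_one_div_add_atTop_nhds_zero_nat).pow 2) (by positivity)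
    convert h1 using 2
    rw [add_zero]
    field_simp

/-- S16. HARDY'S INEQUALITY. -/
theorem hardy (p : E →L[ℝ] Stmt.R3) (a : Stmt.R3) (b : Fin 3 → E)
    (hb : ∀ k, p (b k) = EuclideanSpace.single k 1) {f : E → F} {g : Fin 3 → E → F}
    (hf : MemLp f 2 μ) (hg : ∀ k, MemLp (g k) 2 μ) (h : ∀ k, IsWD μ (b k) f (g k)) :
    Integrable (fun x => ‖f x‖ ^ 2 / ‖p x - a‖ ^ 2) μ ∧
    ∫ x, ‖f x‖ ^ 2 / ‖p x - a‖ ^ 2 ∂μ ≤ 4 * ∑ k, ∫ x, ‖g k x‖ ^ 2 ∂μ := by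
  set B := 4 * ∑ k, ∫ x, ‖g k x‖ ^ 2 ∂μ with hB
  have hB0 : 0 ≤ B := by
    rw [hB]
    exact mul_nonneg (by norm_num) (Finset.sum_nonneg (fun k _ => integral_nonneg (fun x => by
      positivity)))
  have hpos : ∀ n : ℕ, (0 : ℝ) < 1 / ((n : ℝ) + 1) := fun n => by positivity
  have hmeas : AEStronglyMeasurable (fun x => ‖f x‖ ^ 2 / ‖p x - a‖ ^ 2) μ := by
    have hm : Measurable (fun x : E => (‖p x - a‖ ^ 2)⁻¹) :=
      (by fun_prop : Continuous (fun x : E => ‖p x - a‖ ^ 2)).measurable.inv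
    simp only [div_eq_mul_inv]
    exact (hf.1.norm.pow 2).mul hm.aestronglyMeasurable
  have hmeasn : ∀ n : ℕ, AEMeasurable (fun x => ENNReal.ofReal
      (hardyW p a (1 / ((n : ℝ) + 1)) x * ‖f x‖ ^ 2)) μ := fun n =>
    (((hardyW_continuous p a (hpos n)).aestronglyMeasurable.mul
      (hf.1.norm.pow 2)).aemeasurable).ennreal_ofReal
  have fatou : ∫⁻ x, ENNReal.ofReal (‖f x‖ ^ 2 / ‖p x - a‖ ^ 2) ∂μ ≤ ENNReal.ofReal B := by
    have e : ∀ x, ENNReal.ofReal (‖f x‖ ^ 2 / ‖p x - a‖ ^ 2) =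
        liminf (fun n : ℕ => ENNReal.ofReal
          (hardyW p a (1 / ((n : ℝ) + 1)) x * ‖f x‖ ^ 2)) atTop := by
      intro x
      refine (Tendsto.liminf_eq ?_).symm
      refine (ENNReal.continuous_ofReal.tendsto _).comp ?_
      have := (hardyW_tendsto p a x).mul_const (‖f x‖ ^ 2)
      rwa [one_div_mul_eq_div] at this
    simp only [e]
    refine (lintegral_liminf_le' hmeasn).trans ?_
    refine liminf_le_of_le (by isBoundedDefault) (fun c hc => ?_)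
    obtain ⟨n, hn⟩ := hc.exists
    refine hn.trans ?_
    have hi : Integrable (fun x => hardyW p a (1 / ((n : ℝ) + 1)) x * ‖f x‖ ^ 2) μ := by
      refine (hf.integrable_norm_pow (by norm_num)).bdd_mul (c := 1 / (1 / ((n : ℝ) + 1)))
        (hardyW_continuous p a (hpos n)).aestronglyMeasurable (Eventually.of_forall fun x => ?_)
      rw [Real.norm_eq_abs, abs_of_nonneg (hardyW_nonneg p a _ x)]
      exact hardyW_le p a (hpos n) x
    rw [← ofReal_integral_eq_lintegral_ofReal hi (Eventually.of_forall fun x =>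
      mul_nonneg (hardyW_nonneg p a _ x) (by positivity))]
    exact ENNReal.ofReal_le_ofReal (hardy_reg p a (hpos n) b hb hf hg h)
  have hnn : 0 ≤ᵐ[μ] fun x => ‖f x‖ ^ 2 / ‖p x - a‖ ^ 2 :=
    Eventually.of_forall fun x => by positivity
  have hint : Integrable (fun x => ‖f x‖ ^ 2 / ‖p x - a‖ ^ 2) μ := by
    refine ⟨hmeas, ?_⟩
    rw [hasFiniteIntegral_iff_ofReal hnn]
    exact fatou.trans_lt ENNReal.ofReal_lt_top
  refine ⟨hint, ?_⟩
  rw [integral_eq_lintegral_of_nonneg_ae hnn hmeas]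
  exact ENNReal.toReal_le_of_le_ofReal hB0 fatou

/-- Coulomb potentials are infinitesimally form bounded. -/
theorem coulomb_le (p : E →L[ℝ] Stmt.R3) (a : Stmt.R3) (b : Fin 3 → E)
    (hb : ∀ k, p (b k) = EuclideanSpace.single k 1) {f : E → F} {g : Fin 3 → E → F}
    (hf : MemLp f 2 μ) (hg : ∀ k, MemLp (g k) 2 μ) (h : ∀ k, IsWD μ (b k) f (g k)) :
    Integrable (fun x => ‖f x‖ ^ 2 / ‖p x - a‖) μ ∧
    ∀ η : ℝ, 0 < η → ∫ x, ‖f x‖ ^ 2 / ‖p x - a‖ ∂μ ≤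
      η * ∑ k, ∫ x, ‖g k x‖ ^ 2 ∂μ + (1 / η) * ∫ x, ‖f x‖ ^ 2 ∂μ := by
  obtain ⟨h1, h2⟩ := hardy p a b hb hf hg h
  have h3 : Integrable (fun x => ‖f x‖ ^ 2) μ := hf.integrable_norm_pow (by norm_num)
  have pw : ∀ η : ℝ, 0 < η → ∀ x, ‖f x‖ ^ 2 / ‖p x - a‖ ≤
      (η / 4) * (‖f x‖ ^ 2 / ‖p x - a‖ ^ 2) + (1 / η) * ‖f x‖ ^ 2 := by
    intro η hη x
    rcases (norm_nonneg (p x - a)).eq_or_lt with h0 | h0
    · rw [← h0]
      have : 0 ≤ (1 / η) * ‖f x‖ ^ 2 := by positivity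
      simpa using this
    · have h5 : 1 / ‖p x - a‖ ≤ (η / 4) * (1 / ‖p x - a‖ ^ 2) + 1 / η := by
        have h6 : 0 ≤ (η / 2 * (1 / ‖p x - a‖) - 1) ^ 2 / η := by positivity
        have h7 : (η / 2 * (1 / ‖p x - a‖) - 1) ^ 2 / η =
            (η / 4) * (1 / ‖p x - a‖ ^ 2) - 1 / ‖p x - a‖ + 1 / η := by
          field_simp
          ring
        linarith
      calc ‖f x‖ ^ 2 / ‖p x - a‖ = ‖f x‖ ^ 2 * (1 / ‖p x - a‖) := by ring
        _ ≤ ‖f x‖ ^ 2 * ((η / 4) * (1 / ‖p x - a‖ ^ 2) + 1 / η) := by gcongr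
        _ = _ := by ring
  have hmeas : AEStronglyMeasurable (fun x => ‖f x‖ ^ 2 / ‖p x - a‖) μ := by
    have hm : Measurable (fun x : E => (‖p x - a‖)⁻¹) :=
      (by fun_prop : Continuous (fun x : E => ‖p x - a‖)).measurable.inv
    simp only [div_eq_mul_inv]
    exact (hf.1.norm.pow 2).mul hm.aestronglyMeasurable
  have hint : Integrable (fun x => ‖f x‖ ^ 2 / ‖p x - a‖) μ := by
    refine ((h1.const_mul (1 / 4)).add (h3.const_mul (1 / 1))).mono' hmeas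
      (Eventually.of_forall fun x => ?_)
    rw [Real.norm_eq_abs, abs_of_nonneg (by positivity)]
    simpa using pw 1 one_pos x
  refine ⟨hint, fun η hη => ?_⟩
  calc ∫ x, ‖f x‖ ^ 2 / ‖p x - a‖ ∂μ
      ≤ ∫ x, ((η / 4) * (‖f x‖ ^ 2 / ‖p x - a‖ ^ 2) + (1 / η) * ‖f x‖ ^ 2) ∂μ :=
        integral_mono hint ((h1.const_mul _).add (h3.const_mul _)) (pw η hη)
    _ = (η / 4) * ∫ x, ‖f x‖ ^ 2 / ‖p x - a‖ ^ 2 ∂μ + (1 / η) * ∫ x, ‖f x‖ ^ 2 ∂μ := by
        rw [integral_add (h1.const_mul _) (h3.const_mul _), integral_const_mul,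
          integral_const_mul]
    _ ≤ _ := by
        have := mul_le_mul_of_nonneg_left h2 (by positivity : 0 ≤ η / 4)
        linarith

end

end Vale.Agent.P363.R.Sob
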