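import Vale.Agent.P363.R.Sob.Density

/-! Local smooth approximation and the chain rule. -/

namespace Vale.Agent.P363.R.Sob

open MeasureTheory Filter Topology
open scoped ContDiff ENNReal Convolution

set_option linter.unusedSectionVars false

noncomputable section

variable {E : Type*} [NormedAddCommGroup E] [NormedSpace ℝ E] [FiniteDimensional ℝ E]
  [MeasurableSpace E] [BorelSpace E]
variable {F : Type*} [NormedAddCommGroup F] [NormedSpace ℝ F] [CompleteSpace F]
variable {μ : Measure E} [μ.IsAddHaarMeasure] {v : E}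

/-- local approximation by smooth compactly supported functions, in `L¹(K)` and a.e. on `K`. -/
theorem IsWD.local_approx {f g : E → F} (h : IsWD μ v f g) (hf : LocallyIntegrable f μ)
    (hg : LocallyIntegrable g μ) {K : Set E} (hK : IsCompact K) :
    ∃ fn : ℕ → E → F, (∀ n, ContDiff ℝ ∞ (fn n)) ∧ (∀ n, HasCompactSupport (fn n)) ∧
      Tendsto (fun n => ∫⁻ x in K, ‖fn n x - f x‖ₑ ∂μ) atTop (𝓝 0) ∧
      Tendsto (fun n => ∫⁻ x in K, ‖fderiv ℝ (fn n) x v - g x‖ₑ ∂μ) atTop (𝓝 0) ∧
      (∀ᵐ x ∂μ, x ∈ K → Tendsto (fun n => fn n x) atTop (𝓝 (f x))) ∧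
      (∀ᵐ x ∂μ, x ∈ K → Tendsto (fun n => fderiv ℝ (fn n) x v) atTop (𝓝 (g x))) := by
  obtain ⟨R, hR⟩ := hK.isBounded.subset_closedBall (0 : E)
  obtain ⟨N, hN⟩ := exists_nat_ge R
  have hKin : ∀ x ∈ K, x ∈ Metric.ball (0 : E) ((N : ℝ) + 1) := fun x hx => by
    have := hR hx
    rw [mem_closedBall_zero_iff] at this
    rw [mem_ball_zero_iff]; linarith
  set χ : E → ℝ := cut N with hχ
  have hχ1 : ∀ x ∈ Metric.ball (0 : E) ((N : ℝ) + 1), χ x = 1 := fun x hx =>
    cut_eq_one N x (by rw [mem_ball_zero_iff] at hx; exact hx.le)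
  have hχ2 : ∀ x ∈ Metric.ball (0 : E) ((N : ℝ) + 1), fderiv ℝ χ x v = 0 := by
    intro x hx
    have : χ =ᶠ[𝓝 x] fun _ => (1 : ℝ) := by
      filter_upwards [Metric.isOpen_ball.mem_nhds hx] with y hy using hχ1 y hy
    rw [this.fderiv_eq]; simp
  set f1 : E → F := fun x => χ x • f x with hf1
  set g1 : E → F := fun x => (fderiv ℝ χ x v) • f x + χ x • g x with hg1
  have W1 : IsWD μ v f1 g1 := h.cut_smul (cut_test N).contDiff hf hg
  have i1 : Integrable f1 μ := (cut_test N).integrable_smul hf
  have i2 : Integrable g1 μ :=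
    (((cut_test N).fderiv v).integrable_smul hf).add ((cut_test N).integrable_smul hg)
  have L1 : MemLp f1 1 μ := memLp_one_iff_integrable.2 i1
  have L2 : MemLp g1 1 μ := memLp_one_iff_integrable.2 i2
  have t1 := tendsto_moll_std (μ := μ) (p := 1) (by norm_num) L1
  have t2 := tendsto_moll_std (μ := μ) (p := 1) (by norm_num) L2
  have cm1 : ∀ n, AEStronglyMeasurable (moll μ (stdBump n) f1) μ := fun n =>
    (moll_contDiff _ i1.locallyIntegrable).continuous.aestronglyMeasurable
  have cm2 : ∀ n, AEStronglyMeasurable (moll μ (stdBump n) g1) μ := fun n =>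
    (moll_contDiff _ i2.locallyIntegrable).continuous.aestronglyMeasurable
  have m1 : TendstoInMeasure μ (fun n => moll μ (stdBump n) f1) atTop f1 :=
    tendstoInMeasure_of_tendsto_eLpNorm one_ne_zero cm1 i1.1 t1
  obtain ⟨ns, hns, a1⟩ := m1.exists_seq_tendsto_ae
  have t2' := t2.comp hns.tendsto_atTop
  have m2 : TendstoInMeasure μ (fun n => moll μ (stdBump (ns n)) g1) atTop g1 :=
    tendstoInMeasure_of_tendsto_eLpNorm one_ne_zero (fun n => cm2 (ns n)) i2.1 t2'
  obtain ⟨ms, hms, a2⟩ := m2.exists_seq_tendsto_ae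
  have e0 : ∀ n, (fun x => fderiv ℝ (moll μ (stdBump n) f1) x v) = moll μ (stdBump n) g1 := by
    intro n; ext x; exact fderiv_moll _ W1 i1.locallyIntegrable x
  refine ⟨fun n => moll μ (stdBump (ns (ms n))) f1, fun n => moll_contDiff _ i1.locallyIntegrable,
    fun n => moll_hasCompactSupport _ ((cut_test N).2.smul_right), ?_, ?_, ?_, ?_⟩
  · have := (t1.comp hns.tendsto_atTop).comp hms.tendsto_atTop
    refine tendsto_of_tendsto_of_tendsto_of_le_of_le tendsto_const_nhds this
        (fun _ => zero_le) fun n => ?_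
    simp only [Function.comp_apply]
    rw [eLpNorm_one_eq_lintegral_enorm]
    calc ∫⁻ x in K, ‖moll μ (stdBump (ns (ms n))) f1 x - f x‖ₑ ∂μ
        = ∫⁻ x in K, ‖(moll μ (stdBump (ns (ms n))) f1 - f1) x‖ₑ ∂μ := by
          refine setLIntegral_congr_fun hK.measurableSet fun x hx => ?_
          simp only [Pi.sub_apply, hf1, hχ1 x (hKin x hx), one_smul]
      _ ≤ _ := setLIntegral_le_lintegral _ _
  · have := t2'.comp hms.tendsto_atTop
    refine tendsto_of_tendsto_of_tendsto_of_le_of_le tendsto_const_nhds this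
        (fun _ => zero_le) fun n => ?_
    simp only [Function.comp_apply]
    rw [eLpNorm_one_eq_lintegral_enorm]
    calc ∫⁻ x in K, ‖fderiv ℝ (moll μ (stdBump (ns (ms n))) f1) x v - g x‖ₑ ∂μ
        = ∫⁻ x in K, ‖(moll μ (stdBump (ns (ms n))) g1 - g1) x‖ₑ ∂μ := by
          refine setLIntegral_congr_fun hK.measurableSet fun x hx => ?_
          have := congrFun (e0 (ns (ms n))) x
          rw [Pi.sub_apply, ← this]
          simp only [hg1, hχ1 x (hKin x hx), hχ2 x (hKin x hx), one_smul,
            zero_smul, zero_add]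
      _ ≤ _ := setLIntegral_le_lintegral _ _
  · filter_upwards [a1] with x hx hxK
    have := hx.comp hms.tendsto_atTop
    simpa only [Function.comp_def, hf1, hχ1 x (hKin x hxK), one_smul] using this
  · filter_upwards [a2] with x hx hxK
    have e1 : g1 x = g x := by
      simp only [hg1, hχ1 x (hKin x hxK), hχ2 x (hKin x hxK), one_smul, zero_smul, zero_add]
    rw [e1] at hx
    refine hx.congr fun n => ?_
    exact (congrFun (e0 (ns (ms n))) x).symm

theorem locInt_norm_smul {f : E → F} (hf : LocallyIntegrable f μ) (C : ℝ) :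
    LocallyIntegrable (fun x => C * ‖f x‖) μ := by
  intro x
  obtain ⟨U, hU, h⟩ := hf x
  exact ⟨U, hU, h.norm.const_mul C⟩

theorem aesm_clm_apply {G : Type*} [NormedAddCommGroup G] [NormedSpace ℝ G]
    {L : E → F →L[ℝ] G} {f : E → F} (hL : AEStronglyMeasurable L μ)
    (hf : AEStronglyMeasurable f μ) : AEStronglyMeasurable (fun x => L x (f x)) μ :=
  (isBoundedBilinearMap_apply (𝕜 := ℝ) (E := F) (F := G)).continuous.comp_aestronglyMeasurable
    (hL.prodMk hf)

/-- integration by parts for a `C¹` function against a test function -/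
theorem isWD_of_contDiff {f : E → F} (hf : ContDiff ℝ 1 f) :
    IsWD μ v f (fun x => fderiv ℝ f x v) := by
  intro φ hφ
  have hc : Continuous f := hf.continuous
  have hc' : Continuous (fun x => fderiv ℝ f x v) :=
    (hf.continuous_fderiv (by simp)).clm_apply continuous_const
  have := integral_smul_fderiv_eq_neg_fderiv_smul_of_integrable (μ := μ) (f := φ) (g := f) (v := v)
    ((hφ.fderiv v).integrable_smul hc.locallyIntegrable)
    (hφ.integrable_smul hc'.locallyIntegrable) (hφ.integrable_smul hc.locallyIntegrable)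
    (fun x _ => hφ.differentiable x) (fun x _ => hf.differentiable (by simp) x)
  rw [this, neg_neg]

/-- General chain rule (`C¹` map between Banach spaces with bounded derivative). -/
theorem IsWD.comp_contDiff {G : Type*} [NormedAddCommGroup G] [NormedSpace ℝ G] [CompleteSpace G]
    {f g : E → F} {Φ : F → G} (h : IsWD μ v f g) (hf : LocallyIntegrable f μ)
    (hg : LocallyIntegrable g μ) (hΦ : ContDiff ℝ 1 Φ) (C : ℝ)
    (hC : ∀ y, ‖fderiv ℝ Φ y‖ ≤ C) :
    IsWD μ v (fun x => Φ (f x)) (fun x => fderiv ℝ Φ (f x) (g x)) := by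
  intro φ hφ
  have hC0 : 0 ≤ C := (norm_nonneg _).trans (hC 0)
  set K := tsupport φ with hKdef
  have hK : IsCompact K := hφ.2
  obtain ⟨fn, fs, -, c1, c2, a1, a2⟩ := h.local_approx hf hg hK
  have hLip : ∀ a b, ‖Φ a - Φ b‖ ≤ C * ‖a - b‖ := fun a b =>
    Convex.norm_image_sub_le_of_norm_fderiv_le (fun x _ => hΦ.differentiable (by simp) x)
      (fun x _ => hC x) convex_univ (Set.mem_univ _) (Set.mem_univ _)
  have hΦc : Continuous Φ := hΦ.continuous
  have hDc : Continuous (fderiv ℝ Φ) := hΦ.continuous_fderiv (by simp)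
  -- identity for the approximations
  have id1 : ∀ n, ∫ x, (fderiv ℝ φ x v) • Φ (fn n x) ∂μ
      = - ∫ x, φ x • fderiv ℝ Φ (fn n x) (fderiv ℝ (fn n) x v) ∂μ := by
    intro n
    have hs : ContDiff ℝ 1 (fun x => Φ (fn n x)) := hΦ.comp ((fs n).of_le (by simp))
    have := isWD_of_contDiff (μ := μ) (v := v) hs φ hφ
    rw [this]
    congr 1
    refine integral_congr_ae (Eventually.of_forall fun x => ?_)
    simp only
    have hd := (hΦ.differentiable (by simp) (fn n x)).hasFDerivAt.comp x
      (((fs n).differentiable (by simp) x).hasFDerivAt)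
    have : fderiv ℝ (fun x => Φ (fn n x)) x = _ := hd.fderiv
    rw [this]; rfl
  obtain ⟨B0, hB0⟩ := hφ.2.exists_bound_of_continuous hφ.continuous
  obtain ⟨B1, hB1⟩ := (hφ.fderiv v).2.exists_bound_of_continuous (hφ.fderiv v).continuous
  have hB00 : 0 ≤ B0 := (norm_nonneg _).trans (hB0 0)
  have hB10 : 0 ≤ B1 := (norm_nonneg _).trans (hB1 0)
  have z0 : ∀ x, x ∉ K → φ x = 0 := fun x hx => image_eq_zero_of_notMem_tsupport hx
  have z1 : ∀ x, x ∉ K → fderiv ℝ φ x v = 0 := fun x hx => by
    have : fderiv ℝ φ x = 0 := by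
      by_contra hne
      exact hx (support_fderiv_subset ℝ (Function.mem_support.2 hne))
    rw [this]; rfl
  -- local integrability of Φ ∘ f
  have lΦf : LocallyIntegrable (fun x => Φ (f x)) μ := by
    have : LocallyIntegrable (fun x => ‖Φ 0‖ + C * ‖f x‖) μ :=
      (locallyIntegrable_const _).add (locInt_norm_smul hf C)
    refine this.mono (hΦc.comp_aestronglyMeasurable hf.aestronglyMeasurable)
      (Eventually.of_forall fun x => ?_)
    rw [Real.norm_of_nonneg (by positivity)]
    have := hLip (f x) 0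
    rw [sub_zero] at this
    calc ‖Φ (f x)‖ = ‖Φ 0 + (Φ (f x) - Φ 0)‖ := by congr 1; abel
      _ ≤ ‖Φ 0‖ + ‖Φ (f x) - Φ 0‖ := norm_add_le _ _
      _ ≤ _ := by linarith
  -- convergence of the left sides
  have T1 : Tendsto (fun n => ∫ x, (fderiv ℝ φ x v) • Φ (fn n x) ∂μ) atTop
      (𝓝 (∫ x, (fderiv ℝ φ x v) • Φ (f x) ∂μ)) := by
    refine tendsto_integral_of_L1 _ ((hφ.fderiv v).integrable_smul lΦf).1
      (Eventually.of_forall fun n => (hφ.fderiv v).integrable_smul
        ((hΦc.comp (fs n).continuous).locallyIntegrable)) ?_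
    have b : Tendsto (fun n => ENNReal.ofReal (B1 * C) * ∫⁻ x in K, ‖fn n x - f x‖ₑ ∂μ) atTop
        (𝓝 (ENNReal.ofReal (B1 * C) * 0)) :=
      ENNReal.Tendsto.const_mul c1 (Or.inr ENNReal.ofReal_ne_top)
    rw [mul_zero] at b
    refine tendsto_of_tendsto_of_tendsto_of_le_of_le tendsto_const_nhds b
        (fun _ => zero_le) fun n => ?_
    rw [← lintegral_const_mul' _ _ ENNReal.ofReal_ne_top,
      ← lintegral_indicator hK.measurableSet]
    refine lintegral_mono fun x => ?_
    by_cases hx : x ∈ K
    · rw [Set.indicator_of_mem hx, ← ofReal_norm, ← ofReal_norm,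
        ← ENNReal.ofReal_mul (by positivity)]
      refine ENNReal.ofReal_le_ofReal ?_
      rw [← smul_sub, norm_smul]
      calc _ ≤ B1 * (C * ‖fn n x - f x‖) :=
            mul_le_mul (hB1 x) (hLip _ _) (norm_nonneg _) hB10
        _ = _ := by ring
    · rw [Set.indicator_of_notMem hx, z1 x hx]; simp
  -- convergence of the right sides
  have T2 : Tendsto (fun n => ∫ x, φ x • fderiv ℝ Φ (fn n x) (fderiv ℝ (fn n) x v) ∂μ) atTop
      (𝓝 (∫ x, φ x • fderiv ℝ Φ (f x) (g x) ∂μ)) := by
    have mf : AEStronglyMeasurable (fun x => fderiv ℝ Φ (f x) (g x)) μ :=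
      aesm_clm_apply (hDc.comp_aestronglyMeasurable hf.aestronglyMeasurable)
        hg.aestronglyMeasurable
    have lD : LocallyIntegrable (fun x => fderiv ℝ Φ (f x) (g x)) μ := by
      refine (locInt_norm_smul hg C).mono mf (Eventually.of_forall fun x => ?_)
      rw [Real.norm_of_nonneg (by positivity)]
      exact (ContinuousLinearMap.le_opNorm _ _).trans
        (mul_le_mul_of_nonneg_right (hC _) (norm_nonneg _))
    have i3 : ∀ n, LocallyIntegrable (fun x => fderiv ℝ Φ (fn n x) (g x)) μ := by
      intro n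
      refine (locInt_norm_smul hg C).mono
        (aesm_clm_apply ((hDc.comp (fs n).continuous).aestronglyMeasurable)
          hg.aestronglyMeasurable)
        (Eventually.of_forall fun x => ?_)
      rw [Real.norm_of_nonneg (by positivity)]
      exact (ContinuousLinearMap.le_opNorm _ _).trans
        (mul_le_mul_of_nonneg_right (hC _) (norm_nonneg _))
    have i4 : ∀ n, LocallyIntegrable (fun x => fderiv ℝ Φ (fn n x) (fderiv ℝ (fn n) x v)) μ := by
      intro n
      have : Continuous (fun x => fderiv ℝ Φ (fn n x) (fderiv ℝ (fn n) x v)) :=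
        (hDc.comp (fs n).continuous).clm_apply
          (((fs n).continuous_fderiv (by simp)).clm_apply continuous_const)
      exact this.locallyIntegrable
    have s1 : Tendsto (fun n => ∫ x, φ x • fderiv ℝ Φ (fn n x) (g x) ∂μ) atTop
        (𝓝 (∫ x, φ x • fderiv ℝ Φ (f x) (g x) ∂μ)) := by
      refine tendsto_integral_of_dominated_convergence (fun x => C * ‖φ x • g x‖)
        (fun n => (hφ.integrable_smul (i3 n)).1) ((hφ.integrable_smul hg).norm.const_mul C) ?_ ?_
      · intro n
        refine Eventually.of_forall fun x => ?_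
        rw [norm_smul, norm_smul]
        calc _ ≤ ‖φ x‖ * (C * ‖g x‖) := by
              refine mul_le_mul_of_nonneg_left ?_ (norm_nonneg _)
              exact (ContinuousLinearMap.le_opNorm _ _).trans
                (mul_le_mul_of_nonneg_right (hC _) (norm_nonneg _))
          _ = _ := by ring
      · filter_upwards [a1] with x hx
        by_cases hxK : x ∈ K
        · refine Tendsto.const_smul ?_ _
          have := (hDc.tendsto (f x)).comp (hx hxK)
          exact ((ContinuousLinearMap.apply ℝ G (g x)).continuous.tendsto _).comp this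
        · simp only [z0 x hxK, zero_smul]; exact tendsto_const_nhds
    have s2 : Tendsto (fun n => ∫ x, φ x • fderiv ℝ Φ (fn n x) (fderiv ℝ (fn n) x v - g x) ∂μ)
        atTop (𝓝 0) := by
      rw [tendsto_zero_iff_norm_tendsto_zero]
      have b : Tendsto (fun n => (ENNReal.ofReal (B0 * C) *
          ∫⁻ x in K, ‖fderiv ℝ (fn n) x v - g x‖ₑ ∂μ).toReal) atTop (𝓝 (0 : ℝ≥0∞).toReal) := by
        refine (ENNReal.tendsto_toReal (by simp)).comp ?_
        have := ENNReal.Tendsto.const_mul (a := ENNReal.ofReal (B0 * C)) c2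
          (Or.inr ENNReal.ofReal_ne_top)
        rwa [mul_zero] at this
      rw [ENNReal.toReal_zero] at b
      have hfin : ∀ n, (∫⁻ x in K, ‖fderiv ℝ (fn n) x v - g x‖ₑ ∂μ) ≠ ⊤ := by
        intro n
        have c : LocallyIntegrable (fun x => fderiv ℝ (fn n) x v - g x) μ :=
          ((((fs n).continuous_fderiv (by simp)).clm_apply
            continuous_const).locallyIntegrable).sub hg
        exact (c.integrableOn_isCompact hK).2.ne
      refine squeeze_zero (fun n => norm_nonneg _) (fun n => ?_) b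
      rw [← ENNReal.ofReal_le_iff_le_toReal
        (ENNReal.mul_ne_top ENNReal.ofReal_ne_top (hfin n)), ofReal_norm]
      refine (enorm_integral_le_lintegral_enorm _).trans ?_
      rw [← lintegral_const_mul' _ _ ENNReal.ofReal_ne_top,
        ← lintegral_indicator hK.measurableSet]
      refine lintegral_mono fun x => ?_
      by_cases hx : x ∈ K
      · rw [Set.indicator_of_mem hx, ← ofReal_norm, ← ofReal_norm,
          ← ENNReal.ofReal_mul (by positivity)]
        refine ENNReal.ofReal_le_ofReal ?_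
        rw [norm_smul]
        calc _ ≤ B0 * (C * ‖fderiv ℝ (fn n) x v - g x‖) := by
              refine mul_le_mul (hB0 x) ?_ (norm_nonneg _) hB00
              exact (ContinuousLinearMap.le_opNorm _ _).trans
                (mul_le_mul_of_nonneg_right (hC _) (norm_nonneg _))
          _ = _ := by ring
      · rw [Set.indicator_of_notMem hx, z0 x hx]; simp
    have s3 := s2.add s1
    rw [zero_add] at s3
    refine s3.congr fun n => ?_
    rw [← integral_add]
    · refine integral_congr_ae (Eventually.of_forall fun x => ?_)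
      simp only
      rw [← smul_add, ← map_add, sub_add_cancel]
    · have : LocallyIntegrable (fun x => fderiv ℝ Φ (fn n x) (fderiv ℝ (fn n) x v - g x)) μ := by
        simp only [map_sub]
        exact (i4 n).sub (i3 n)
      exact hφ.integrable_smul this
    · exact hφ.integrable_smul (i3 n)
  have T3 := T2.neg
  refine tendsto_nhds_unique T1 (T3.congr fun n => (id1 n).symm)

/-- S7. chain rule for real functions with a `C¹` function with bounded derivative -/
theorem IsWD.comp {f g : E → ℝ} {Φ Φ' : ℝ → ℝ} (h : IsWD μ v f g)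
    (hf : LocallyIntegrable f μ) (hg : LocallyIntegrable g μ)
    (hΦ : ∀ t, HasDerivAt Φ (Φ' t) t) (hc : Continuous Φ') (C : ℝ) (hC : ∀ t, |Φ' t| ≤ C) :
    IsWD μ v (fun x => Φ (f x)) (fun x => Φ' (f x) * g x) := by
  have hd : deriv Φ = Φ' := funext fun t => (hΦ t).deriv
  have hcd : ContDiff ℝ 1 Φ :=
    contDiff_one_iff_deriv.2 ⟨fun t => (hΦ t).differentiableAt, hd ▸ hc⟩
  have hfd : ∀ y z, fderiv ℝ Φ y z = Φ' y * z := fun y z => by
    have : fderiv ℝ Φ y z = z • deriv Φ y := fderiv_eq_smul_deriv z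
    rw [this, hd, smul_eq_mul, mul_comm]
  have hC0 : 0 ≤ C := (abs_nonneg _).trans (hC 0)
  have := h.comp_contDiff hf hg hcd C fun y => by
    refine ContinuousLinearMap.opNorm_le_bound _ hC0 fun z => ?_
    rw [hfd, norm_mul]
    exact mul_le_mul_of_nonneg_right (hC y) (norm_nonneg _)
  simpa only [hfd] using this

end

end Vale.Agent.P363.R.Sob
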