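import Vale.Agent.P363.R.Sob.LocApprox
import Vale.Agent.P363.R.Sob.Chain

/-! Sobolev toolkit S8 (positive part), S9 (level sets), S10 (product of bounded functions),
S11 (regularised norm). -/

namespace Vale.Agent.P363.R.Sob

open MeasureTheory Filter Topology
open scoped ContDiff ENNReal

set_option linter.unusedSectionVars false

noncomputable section

variable {E : Type*} [NormedAddCommGroup E] [NormedSpace ℝ E] [FiniteDimensional ℝ E]
  [MeasurableSpace E] [BorelSpace E]
variable {μ : Measure E} [μ.IsAddHaarMeasure] {v : E}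

/-! ### the regularised positive part -/

theorem hasDerivAt_max_sq (t : ℝ) : HasDerivAt (fun s : ℝ => (max s 0) ^ 2) (2 * max t 0) t := by
  rcases lt_trichotomy t 0 with ht | rfl | ht
  · have h1 : (fun s : ℝ => (max s 0) ^ 2) =ᶠ[𝓝 t] fun _ => (0 : ℝ) := by
      filter_upwards [gt_mem_nhds ht] with s hs
      rw [max_eq_right hs.le]; norm_num
    rw [max_eq_right ht.le, mul_zero]
    exact (hasDerivAt_const t (0 : ℝ)).congr_of_eventuallyEq h1
  · rw [max_self, mul_zero, hasDerivAt_iff_isLittleO]
    simp only [sub_zero, max_self, ne_eq, OfNat.ofNat_ne_zero, not_false_eq_true, zero_pow,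
      smul_zero]
    have h1 : (fun s : ℝ => (max s 0) ^ 2) =O[𝓝 0] fun s => s ^ 2 :=
      Asymptotics.isBigO_of_le _ fun s => by
        rw [norm_pow, norm_pow]
        refine pow_le_pow_left₀ (norm_nonneg _) ?_ 2
        rw [Real.norm_eq_abs, Real.norm_eq_abs, abs_of_nonneg (le_max_right s 0)]
        exact max_le (le_abs_self s) (abs_nonneg s)
    exact h1.trans_isLittleO (by
      have := Asymptotics.isLittleO_pow_pow (𝕜 := ℝ) (m := 1) (n := 2) one_lt_two
      simpa using this)
  · have h1 : (fun s : ℝ => (max s 0) ^ 2) =ᶠ[𝓝 t] fun s => s ^ 2 := by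
      filter_upwards [lt_mem_nhds ht] with s hs
      rw [max_eq_left hs.le]
    rw [max_eq_left ht.le]
    have h2 := (hasDerivAt_pow 2 t).congr_of_eventuallyEq h1
    simpa using h2

/-- the regularised positive part `√(t₊² + ε²) - ε` -/
def posReg (ε t : ℝ) : ℝ := Real.sqrt ((max t 0) ^ 2 + ε ^ 2) - ε

/-- its derivative -/
def posReg' (ε t : ℝ) : ℝ := max t 0 / Real.sqrt ((max t 0) ^ 2 + ε ^ 2)

theorem hasDerivAt_posReg {ε : ℝ} (hε : 0 < ε) (t : ℝ) :
    HasDerivAt (posReg ε) (posReg' ε t) t := by
  have h0 : (max t 0) ^ 2 + ε ^ 2 ≠ 0 := by positivity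
  have h1 := (((hasDerivAt_max_sq t).add_const (ε ^ 2)).sqrt h0).sub_const ε
  refine h1.congr_deriv ?_
  rw [posReg', mul_div_mul_left _ _ two_ne_zero]

theorem continuous_posReg' {ε : ℝ} (hε : 0 < ε) : Continuous (posReg' ε) := by
  unfold posReg'
  refine Continuous.div (by fun_prop) (by fun_prop) fun t => ?_
  have : 0 < (max t 0) ^ 2 + ε ^ 2 := by positivity
  exact (Real.sqrt_pos.2 this).ne'

theorem posReg'_nonneg (ε t : ℝ) : 0 ≤ posReg' ε t :=
  div_nonneg (le_max_right _ _) (Real.sqrt_nonneg _)

theorem posReg'_le_one {ε : ℝ} (hε : 0 < ε) (t : ℝ) : posReg' ε t ≤ 1 := by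
  have : 0 < (max t 0) ^ 2 + ε ^ 2 := by positivity
  rw [posReg', div_le_one (Real.sqrt_pos.2 this)]
  refine Real.le_sqrt_of_sq_le ?_
  nlinarith [sq_nonneg ε]

theorem abs_posReg_sub_le {ε : ℝ} (hε : 0 < ε) (t : ℝ) : |posReg ε t - max t 0| ≤ ε := by
  have hm : 0 ≤ max t 0 := le_max_right _ _
  have h1 : max t 0 ≤ Real.sqrt ((max t 0) ^ 2 + ε ^ 2) := by
    refine Real.le_sqrt_of_sq_le ?_
    nlinarith [sq_nonneg ε]
  have h2 : Real.sqrt ((max t 0) ^ 2 + ε ^ 2) ≤ max t 0 + ε := by
    refine Real.sqrt_le_iff.2 ⟨by positivity, ?_⟩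
    nlinarith [mul_nonneg hm hε.le]
  rw [abs_le, posReg]
  constructor <;> linarith

theorem tendsto_posReg' {en : ℕ → ℝ} (h0 : Tendsto en atTop (𝓝 0))
    (t : ℝ) : Tendsto (fun n => posReg' (en n) t) atTop (𝓝 (if 0 < t then 1 else 0)) := by
  by_cases ht : 0 < t
  · rw [if_pos ht]
    have h1 : Tendsto (fun n => max t 0 / Real.sqrt ((max t 0) ^ 2 + (en n) ^ 2)) atTop
        (𝓝 (max t 0 / Real.sqrt ((max t 0) ^ 2 + (0 : ℝ) ^ 2))) := by
      refine tendsto_const_nhds.div ?_ ?_
      · exact (Real.continuous_sqrt.tendsto _).comp (tendsto_const_nhds.add (h0.pow 2))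
      · rw [max_eq_left ht.le]
        have : 0 < t ^ 2 + (0 : ℝ) ^ 2 := by positivity
        exact (Real.sqrt_pos.2 this).ne'
    have h2 : max t 0 / Real.sqrt ((max t 0) ^ 2 + (0 : ℝ) ^ 2) = 1 := by
      rw [max_eq_left ht.le]
      simp only [ne_eq, OfNat.ofNat_ne_zero, not_false_eq_true, zero_pow, add_zero]
      rw [Real.sqrt_sq ht.le, div_self ht.ne']
    rw [h2] at h1
    exact h1
  · rw [if_neg ht]
    refine tendsto_const_nhds.congr fun n => ?_
    rw [posReg', max_eq_right (not_lt.1 ht), zero_div]

theorem aesm_indicator_pos {f g : E → ℝ} (hf : AEStronglyMeasurable f μ)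
    (hg : AEStronglyMeasurable g μ) :
    AEStronglyMeasurable (fun x => if 0 < f x then g x else 0) μ := by
  have hs : NullMeasurableSet {x | 0 < f x} μ :=
    nullMeasurableSet_lt aemeasurable_const hf.aemeasurable
  have : (fun x => if 0 < f x then g x else 0) = {x | 0 < f x}.indicator g := by
    funext x
    by_cases hx : 0 < f x
    · rw [if_pos hx, Set.indicator_of_mem (by exact hx)]
    · rw [if_neg hx, Set.indicator_of_notMem (by exact hx)]
  rw [this]
  exact hg.indicator₀ hs

/-- S8. positive part -/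
theorem IsWD.pos_part {f g : E → ℝ} (h : IsWD μ v f g)
    (hf : LocallyIntegrable f μ) (hg : LocallyIntegrable g μ) :
    IsWD μ v (fun x => max (f x) 0) (fun x => if 0 < f x then g x else 0) := by
  have hfm := hf.aestronglyMeasurable
  have hgm := hg.aestronglyMeasurable
  have l1 : LocallyIntegrable (fun x => max (f x) 0) μ := by
    refine hf.mono (hfm.sup aestronglyMeasurable_const) (Eventually.of_forall fun x => ?_)
    rw [Real.norm_eq_abs, Real.norm_eq_abs, abs_of_nonneg (le_max_right _ _)]
    exact max_le (le_abs_self _) (abs_nonneg _)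
  have l2 : LocallyIntegrable (fun x => if 0 < f x then g x else 0) μ := by
    refine hg.mono (aesm_indicator_pos hfm hgm) (Eventually.of_forall fun x => ?_)
    split_ifs
    · exact le_rfl
    · rw [norm_zero]; exact norm_nonneg _
  set en : ℕ → ℝ := fun n => 1 / ((n : ℝ) + 1) with hen
  have hpos : ∀ n, 0 < en n := fun n => by rw [hen]; positivity
  have h0 : Tendsto en atTop (𝓝 0) := tendsto_one_div_add_atTop_nhds_zero_nat
  refine IsWD.of_tendsto_local l1 l2 fun K hK => ?_
  have hC : ∀ n t, |posReg' (en n) t| ≤ 1 := fun n t => by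
    rw [abs_of_nonneg (posReg'_nonneg _ _)]; exact posReg'_le_one (hpos n) t
  have hcont : ∀ n, Continuous (posReg (en n)) := fun n =>
    continuous_iff_continuousAt.2 fun t => (hasDerivAt_posReg (hpos n) t).continuousAt
  have hfin : μ K ≠ ⊤ := hK.measure_lt_top.ne
  refine ⟨fun n x => posReg (en n) (f x), fun n x => posReg' (en n) (f x) * g x, fun n => ?_,
    fun n => ?_, fun n => ?_, ?_, ?_⟩
  · exact h.comp hf hg (hasDerivAt_posReg (hpos n)) (continuous_posReg' (hpos n)) 1 (hC n)
  · have l3 : LocallyIntegrable (fun x => ‖f x‖ + en n) μ :=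
      LocallyIntegrable.add (fun x => (hf x).norm) (locallyIntegrable_const _)
    refine l3.mono ((hcont n).comp_aestronglyMeasurable hfm) (Eventually.of_forall fun x => ?_)
    have a1 := abs_posReg_sub_le (hpos n) (f x)
    have a2 : |max (f x) 0| ≤ |f x| := by
      rw [abs_of_nonneg (le_max_right _ _)]
      exact max_le (le_abs_self _) (abs_nonneg _)
    have a3 : |posReg (en n) (f x)| ≤ |f x| + en n := by
      calc |posReg (en n) (f x)| = |(posReg (en n) (f x) - max (f x) 0) + max (f x) 0| := by ring_nf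
        _ ≤ |posReg (en n) (f x) - max (f x) 0| + |max (f x) 0| := abs_add_le _ _
        _ ≤ _ := by linarith
    rw [Real.norm_eq_abs, Real.norm_eq_abs, Real.norm_eq_abs]
    exact a3.trans (le_abs_self _)
  · refine hg.mono (((continuous_posReg' (hpos n)).comp_aestronglyMeasurable hfm).mul hgm)
      (Eventually.of_forall fun x => ?_)
    rw [norm_mul]
    calc _ ≤ 1 * ‖g x‖ := mul_le_mul_of_nonneg_right (hC n _) (norm_nonneg _)
      _ = _ := one_mul _
  · have hb : ∀ n, eLpNorm ((fun x => posReg (en n) (f x)) - fun x => max (f x) 0) 1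
        (μ.restrict K) ≤ ENNReal.ofReal (en n) * μ K := by
      intro n
      rw [eLpNorm_one_eq_lintegral_enorm]
      calc ∫⁻ x in K, ‖((fun x => posReg (en n) (f x)) - fun x => max (f x) 0) x‖ₑ ∂μ
          ≤ ∫⁻ x in K, ENNReal.ofReal (en n) ∂μ := by
            refine lintegral_mono fun x => ?_
            rw [← ofReal_norm]
            exact ENNReal.ofReal_le_ofReal (abs_posReg_sub_le (hpos n) (f x))
        _ = _ := by rw [setLIntegral_const]
    have t1 : Tendsto (fun n => ENNReal.ofReal (en n) * μ K) atTop (𝓝 0) := by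
      have := ENNReal.Tendsto.mul_const (b := μ K) (ENNReal.tendsto_ofReal h0) (Or.inr hfin)
      simpa using this
    exact tendsto_of_tendsto_of_tendsto_of_le_of_le tendsto_const_nhds t1 (fun _ => zero_le) hb
  · simp only [eLpNorm_one_eq_lintegral_enorm]
    have hm1 : ∀ n, AEStronglyMeasurable ((fun x => posReg' (en n) (f x) * g x) -
        fun x => if 0 < f x then g x else 0) (μ.restrict K) := fun n =>
      ((((continuous_posReg' (hpos n)).comp_aestronglyMeasurable hfm).mul hgm).sub
        (aesm_indicator_pos hfm hgm)).restrict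
    have := tendsto_lintegral_of_dominated_convergence' (μ := μ.restrict K)
      (F := fun n x => ‖((fun x => posReg' (en n) (f x) * g x) -
        fun x => if 0 < f x then g x else 0) x‖ₑ) (f := fun _ => 0)
      (fun x => ENNReal.ofReal 2 * ‖g x‖ₑ) (fun n => (hm1 n).enorm)
      (fun n => Eventually.of_forall fun x => ?_) ?_ ?_
    · simpa using this
    · beta_reduce
      rw [← ofReal_norm, ← ofReal_norm, ← ENNReal.ofReal_mul (by norm_num)]
      refine ENNReal.ofReal_le_ofReal ?_
      simp only [Pi.sub_apply]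
      calc ‖posReg' (en n) (f x) * g x - if 0 < f x then g x else 0‖
          ≤ ‖posReg' (en n) (f x) * g x‖ + ‖if 0 < f x then g x else 0‖ := norm_sub_le _ _
        _ ≤ 1 * ‖g x‖ + ‖g x‖ := by
            refine add_le_add ?_ ?_
            · rw [norm_mul]
              exact mul_le_mul_of_nonneg_right (hC n _) (norm_nonneg _)
            · split_ifs
              · exact le_rfl
              · rw [norm_zero]; exact norm_nonneg _
        _ = 2 * ‖g x‖ := by ring
    · rw [lintegral_const_mul' _ _ ENNReal.ofReal_ne_top]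
      exact ENNReal.mul_ne_top ENNReal.ofReal_ne_top (hg.integrableOn_isCompact hK).2.ne
    · refine Eventually.of_forall fun x => ?_
      have h1 : Tendsto (fun n => posReg' (en n) (f x) * g x - if 0 < f x then g x else 0) atTop
          (𝓝 0) := by
        have h2 := ((tendsto_posReg' h0 (f x)).mul_const (g x)).sub_const
          (if 0 < f x then g x else 0)
        have e : (if 0 < f x then 1 else 0) * g x - (if 0 < f x then g x else 0) = 0 := by
          split_ifs <;> simp
        rwa [e] at h2
      simpa using h1.enorm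

/-- constants have weak derivative zero -/
theorem isWD_const {F : Type*} [NormedAddCommGroup F] [NormedSpace ℝ F] [CompleteSpace F] (c : F) :
    IsWD μ v (fun _ => c) (fun _ => (0 : F)) :=
  isWD_of_differentiable continuous_const (fun x => (hasFDerivAt_const c x).hasLineDerivAt v)
    (locallyIntegrable_const _)

/-- S9. the derivative vanishes a.e. on level sets -/
theorem IsWD.ae_eq_zero_on_level {f g : E → ℝ} (h : IsWD μ v f g)
    (hf : LocallyIntegrable f μ) (hg : LocallyIntegrable g μ) (c : ℝ) :
    ∀ᵐ x ∂μ, f x = c → g x = 0 := by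
  have hc : LocallyIntegrable (fun _ : E => c) μ := locallyIntegrable_const _
  have h0 : LocallyIntegrable (fun _ : E => (0 : ℝ)) μ := locallyIntegrable_const _
  have lu : LocallyIntegrable (fun x => f x - c) μ := hf.sub hc
  have Wu : IsWD μ v (fun x => f x - c) g := by
    have := h.sub (isWD_const c) hf hg hc h0
    simpa using this
  have lu' : LocallyIntegrable (fun x => -(f x - c)) μ := lu.neg
  have lg' : LocallyIntegrable (fun x => -g x) μ := hg.neg
  have W1 := Wu.pos_part lu hg
  have W2 := Wu.neg.pos_part lu' lg'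
  have m1 : LocallyIntegrable (fun x => max (f x - c) 0) μ := by
    refine lu.mono (lu.aestronglyMeasurable.sup aestronglyMeasurable_const)
      (Eventually.of_forall fun x => ?_)
    rw [Real.norm_eq_abs, Real.norm_eq_abs, abs_of_nonneg (le_max_right _ _)]
    exact max_le (le_abs_self _) (abs_nonneg _)
  have m2 : LocallyIntegrable (fun x => max (-(f x - c)) 0) μ := by
    refine lu'.mono (lu'.aestronglyMeasurable.sup aestronglyMeasurable_const)
      (Eventually.of_forall fun x => ?_)
    rw [Real.norm_eq_abs, Real.norm_eq_abs, abs_of_nonneg (le_max_right _ _)]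
    exact max_le (le_abs_self _) (abs_nonneg _)
  have n1 : LocallyIntegrable (fun x => if 0 < f x - c then g x else 0) μ := by
    refine hg.mono (aesm_indicator_pos lu.aestronglyMeasurable hg.aestronglyMeasurable)
      (Eventually.of_forall fun x => ?_)
    split_ifs
    · exact le_rfl
    · rw [norm_zero]; exact norm_nonneg _
  have n2 : LocallyIntegrable (fun x => if 0 < -(f x - c) then -g x else 0) μ := by
    refine lg'.mono (aesm_indicator_pos lu'.aestronglyMeasurable lg'.aestronglyMeasurable)
      (Eventually.of_forall fun x => ?_)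
    split_ifs
    · exact le_rfl
    · rw [norm_zero]; exact norm_nonneg _
  have W3 := W1.sub W2 m1 n1 m2 n2
  have e : (fun x => max (f x - c) 0 - max (-(f x - c)) 0) = fun x => f x - c := by
    funext x
    rcases le_total (f x - c) 0 with hx | hx
    · rw [max_eq_right hx, max_eq_left (neg_nonneg.2 hx)]; ring
    · rw [max_eq_left hx, max_eq_right (neg_nonpos.2 hx)]; ring
  rw [e] at W3
  have hu := Wu.unique W3 hg (n1.sub n2)
  filter_upwards [hu] with x hx hfx
  rw [hx, hfx]
  simp

/-- the absolute value -/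
theorem IsWD.abs {f g : E → ℝ} (h : IsWD μ v f g)
    (hf : LocallyIntegrable f μ) (hg : LocallyIntegrable g μ) :
    IsWD μ v (fun x => |f x|) (fun x => if 0 < f x then g x else -g x) := by
  have lf' : LocallyIntegrable (fun x => -f x) μ := hf.neg
  have lg' : LocallyIntegrable (fun x => -g x) μ := hg.neg
  have W1 := h.pos_part hf hg
  have W2 := h.neg.pos_part lf' lg'
  have m1 : LocallyIntegrable (fun x => max (f x) 0) μ := by
    refine hf.mono (hf.aestronglyMeasurable.sup aestronglyMeasurable_const)
      (Eventually.of_forall fun x => ?_)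
    rw [Real.norm_eq_abs, Real.norm_eq_abs, abs_of_nonneg (le_max_right _ _)]
    exact max_le (le_abs_self _) (abs_nonneg _)
  have m2 : LocallyIntegrable (fun x => max (-f x) 0) μ := by
    refine lf'.mono (lf'.aestronglyMeasurable.sup aestronglyMeasurable_const)
      (Eventually.of_forall fun x => ?_)
    rw [Real.norm_eq_abs, Real.norm_eq_abs, abs_of_nonneg (le_max_right _ _)]
    exact max_le (le_abs_self _) (abs_nonneg _)
  have n1 : LocallyIntegrable (fun x => if 0 < f x then g x else 0) μ := by
    refine hg.mono (aesm_indicator_pos hf.aestronglyMeasurable hg.aestronglyMeasurable)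
      (Eventually.of_forall fun x => ?_)
    split_ifs
    · exact le_rfl
    · rw [norm_zero]; exact norm_nonneg _
  have n2 : LocallyIntegrable (fun x => if 0 < -f x then -g x else 0) μ := by
    refine lg'.mono (aesm_indicator_pos lf'.aestronglyMeasurable lg'.aestronglyMeasurable)
      (Eventually.of_forall fun x => ?_)
    split_ifs
    · exact le_rfl
    · rw [norm_zero]; exact norm_nonneg _
  have W3 := W1.add W2 m1 n1 m2 n2
  refine W3.congr (Eventually.of_forall fun x => ?_) ?_
  · rcases le_total (f x) 0 with hx | hx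
    · simp only [max_eq_right hx, max_eq_left (neg_nonneg.2 hx), abs_of_nonpos hx, zero_add]
    · simp only [max_eq_left hx, max_eq_right (neg_nonpos.2 hx), abs_of_nonneg hx, add_zero]
  · filter_upwards [h.ae_eq_zero_on_level hf hg 0] with x hx
    rcases lt_trichotomy (f x) 0 with h1 | h1 | h1
    · simp [h1, h1.not_gt]
    · simp [hx h1]
    · simp [h1, h1.not_gt]

/-- product of a locally integrable function with a continuous one -/
theorem locInt_cont_smul {F : Type*} [NormedAddCommGroup F] [NormedSpace ℝ F] {f : E → F}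
    {ψ : E → ℝ} (hf : LocallyIntegrable f μ) (hψ : Continuous ψ) :
    LocallyIntegrable (fun x => ψ x • f x) μ := by
  have h1 := (locallyIntegrableOn_univ.2 hf).continuousOn_smul isClosed_univ.isLocallyClosed
    hψ.continuousOn
  exact locallyIntegrableOn_univ.1 h1

/-- S10. product of two bounded functions with locally integrable weak derivatives -/
theorem IsWD.mul_bdd {f g h k : E → ℝ} (Wf : IsWD μ v f g) (Wh : IsWD μ v h k)
    (hf : AEStronglyMeasurable f μ) (hh : AEStronglyMeasurable h μ)
    (hg : LocallyIntegrable g μ) (hk : LocallyIntegrable k μ)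
    (Cf Ch : ℝ) (bf : ∀ᵐ x ∂μ, |f x| ≤ Cf) (bh : ∀ᵐ x ∂μ, |h x| ≤ Ch) :
    IsWD μ v (fun x => f x * h x) (fun x => g x * h x + f x * k x) := by
  have lf : LocallyIntegrable f μ :=
    (memLp_top_of_bound hf Cf bf).locallyIntegrable (by norm_num)
  have lh : LocallyIntegrable h μ :=
    (memLp_top_of_bound hh Ch bh).locallyIntegrable (by norm_num)
  have mulb : ∀ {a b : E → ℝ} {C : ℝ}, AEStronglyMeasurable b μ → (∀ᵐ x ∂μ, |b x| ≤ C) →
      LocallyIntegrable a μ → LocallyIntegrable (fun x => a x * b x) μ := by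
    intro a b C hb hC ha
    have ha' : LocallyIntegrable (fun x => C * a x) μ := by
      have := ha.smul C
      simpa only [Pi.smul_def, smul_eq_mul] using this
    refine ha'.mono (ha.aestronglyMeasurable.mul hb) ?_
    filter_upwards [hC] with x hx
    rw [norm_mul, norm_mul, mul_comm ‖C‖]
    refine mul_le_mul_of_nonneg_left ?_ (norm_nonneg _)
    exact (Real.norm_eq_abs (b x)).le.trans (hx.trans (le_abs_self C))
  have l1 : LocallyIntegrable (fun x => f x * h x) μ := mulb hh bh lf
  have l2 : LocallyIntegrable (fun x => g x * h x) μ := mulb hh bh hg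
  have l3 : LocallyIntegrable (fun x => f x * k x) μ := by
    have := mulb hf bf hk
    simpa only [mul_comm] using this
  refine IsWD.of_tendsto_local l1 (l2.add l3) fun K hK => ?_
  obtain ⟨hn, s1, s2, s3, s4, s5⟩ := Wh.exists_local_approx lh hk hK
  have hb : ∀ n x, |hn n x| ≤ Ch := s5 Ch bh
  have dc : ∀ n, Continuous (fun x => fderiv ℝ (hn n) x v) := fun n =>
    ((s1 n).continuous_fderiv (by simp)).clm_apply continuous_const
  have hgm := hg.aestronglyMeasurable
  have hkm := hk.aestronglyMeasurable
  refine ⟨fun n x => hn n x • f x, fun n x => (fderiv ℝ (hn n) x v) • f x + hn n x • g x,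
    fun n => Wf.smooth_smul (s1 n) lf hg, fun n => ?_, fun n => ?_, ?_, ?_⟩
  · exact locInt_cont_smul lf (s1 n).continuous
  · exact (locInt_cont_smul lf (dc n)).add (locInt_cont_smul hg (s1 n).continuous)
  · have hb2 : ∀ n, eLpNorm ((fun x => hn n x • f x) - fun x => f x * h x) 1 (μ.restrict K) ≤
        ENNReal.ofReal Cf * eLpNorm (hn n - h) 1 (μ.restrict K) := by
      intro n
      refine eLpNorm_le_mul_eLpNorm_of_ae_le_mul ?_ 1
      filter_upwards [ae_restrict_of_ae bf] with x hx
      simp only [Pi.sub_apply, smul_eq_mul]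
      rw [show hn n x * f x - f x * h x = f x * (hn n x - h x) by ring, norm_mul]
      exact mul_le_mul_of_nonneg_right hx (norm_nonneg _)
    have h0 := ENNReal.Tendsto.const_mul (a := ENNReal.ofReal Cf) s2
      (Or.inr ENNReal.ofReal_ne_top)
    rw [mul_zero] at h0
    exact tendsto_of_tendsto_of_tendsto_of_le_of_le tendsto_const_nhds h0 (fun _ => zero_le) hb2
  · -- first part
    have t1 : Tendsto (fun n => ENNReal.ofReal Cf *
        eLpNorm ((fun x => fderiv ℝ (hn n) x v) - k) 1 (μ.restrict K)) atTop (𝓝 0) := by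
      have h0 := ENNReal.Tendsto.const_mul (a := ENNReal.ofReal Cf) s3
        (Or.inr ENNReal.ofReal_ne_top)
      rwa [mul_zero] at h0
    have hm2 : ∀ n, AEStronglyMeasurable (fun x => (hn n x - h x) * g x) (μ.restrict K) :=
      fun n => (((s1 n).continuous.aestronglyMeasurable.sub hh).mul hgm).restrict
    have hm1 : ∀ n, AEStronglyMeasurable (fun x => (fderiv ℝ (hn n) x v - k x) * f x)
        (μ.restrict K) := fun n =>
      (((dc n).aestronglyMeasurable.sub hkm).mul hf).restrict
    have t2 : Tendsto (fun n => eLpNorm (fun x => (hn n x - h x) * g x) 1 (μ.restrict K)) atTop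
        (𝓝 0) := by
      simp only [eLpNorm_one_eq_lintegral_enorm]
      have := tendsto_lintegral_of_dominated_convergence' (μ := μ.restrict K)
        (F := fun n x => ‖(hn n x - h x) * g x‖ₑ) (f := fun _ => 0)
        (fun x => ENNReal.ofReal (2 * |Ch|) * ‖g x‖ₑ) (fun n => (hm2 n).enorm)
        (fun n => ?_) ?_ ?_
      · simpa using this
      · filter_upwards [ae_restrict_of_ae bh] with x hx
        rw [← ofReal_norm, ← ofReal_norm, ← ENNReal.ofReal_mul (by positivity)]
        refine ENNReal.ofReal_le_ofReal ?_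
        rw [norm_mul]
        refine mul_le_mul_of_nonneg_right ?_ (norm_nonneg _)
        calc ‖hn n x - h x‖ ≤ ‖hn n x‖ + ‖h x‖ := norm_sub_le _ _
          _ ≤ |Ch| + |Ch| := add_le_add ((hb n x).trans (le_abs_self _)) (hx.trans (le_abs_self _))
          _ = _ := by ring
      · rw [lintegral_const_mul' _ _ ENNReal.ofReal_ne_top]
        exact ENNReal.mul_ne_top ENNReal.ofReal_ne_top (hg.integrableOn_isCompact hK).2.ne
      · filter_upwards [s4] with x hx
        have h1 : Tendsto (fun n => (hn n x - h x) * g x) atTop (𝓝 0) := by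
          have h2 := (hx.sub_const (h x)).mul_const (g x)
          simpa using h2
        simpa using h1.enorm
    have t3 := t1.add t2
    rw [add_zero] at t3
    refine tendsto_of_tendsto_of_tendsto_of_le_of_le tendsto_const_nhds t3 (fun _ => zero_le)
      fun n => ?_
    have e : ((fun x => (fderiv ℝ (hn n) x v) • f x + hn n x • g x) -
        fun x => g x * h x + f x * k x) =
        (fun x => (fderiv ℝ (hn n) x v - k x) * f x) + fun x => (hn n x - h x) * g x := by
      funext x
      simp only [Pi.sub_apply, Pi.add_apply, smul_eq_mul]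
      ring
    calc eLpNorm ((fun x => (fderiv ℝ (hn n) x v) • f x + hn n x • g x) -
          fun x => g x * h x + f x * k x) 1 (μ.restrict K)
        ≤ eLpNorm (fun x => (fderiv ℝ (hn n) x v - k x) * f x) 1 (μ.restrict K) +
          eLpNorm (fun x => (hn n x - h x) * g x) 1 (μ.restrict K) := by
          rw [e]; exact eLpNorm_add_le (hm1 n) (hm2 n) le_rfl
      _ ≤ _ := by
          refine add_le_add_left ?_ _
          refine eLpNorm_le_mul_eLpNorm_of_ae_le_mul ?_ 1
          filter_upwards [ae_restrict_of_ae bf] with x hx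
          simp only [Pi.sub_apply]
          rw [norm_mul, mul_comm]
          exact mul_le_mul_of_nonneg_right hx (norm_nonneg _)

/-- S11. regularised norm of a Hilbert space valued function: derivative of `√(‖f‖²+δ²)`. -/
theorem IsWD.sqrt_norm_sq {H : Type*} [NormedAddCommGroup H] [InnerProductSpace ℝ H]
    [CompleteSpace H] {f g : E → H} (h : IsWD μ v f g)
    (hf : LocallyIntegrable f μ) (hg : LocallyIntegrable g μ) (δ : ℝ) (hδ : 0 < δ) :
    IsWD μ v (fun x => Real.sqrt (‖f x‖ ^ 2 + δ ^ 2))
      (fun x => inner ℝ (f x) (g x) / Real.sqrt (‖f x‖ ^ 2 + δ ^ 2)) := by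
  have hpos : ∀ y : H, 0 < ‖y‖ ^ 2 + δ ^ 2 := fun y => by positivity
  set Φ : H → ℝ := fun y => Real.sqrt (‖y‖ ^ 2 + δ ^ 2) with hΦ
  have hcd : ContDiff ℝ 1 Φ := by
    refine ContDiff.sqrt ?_ fun y => (hpos y).ne'
    exact (contDiff_norm_sq ℝ).add contDiff_const
  have hfd : ∀ y w : H, fderiv ℝ Φ y w = inner ℝ y w / Real.sqrt (‖y‖ ^ 2 + δ ^ 2) := by
    intro y w
    have h1 : HasFDerivAt (fun y : H => ‖y‖ ^ 2 + δ ^ 2) (2 • (innerSL ℝ y)) y :=
      (hasStrictFDerivAt_norm_sq y).hasFDerivAt.add_const _
    have h2 := h1.sqrt (hpos y).ne'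
    rw [hΦ, h2.fderiv]
    simp only [smul_apply, innerSL_apply_apply, smul_eq_mul, nsmul_eq_mul, Nat.cast_ofNat]
    field_simp
  have hb : ∀ y, ‖fderiv ℝ Φ y‖ ≤ 1 := by
    intro y
    refine ContinuousLinearMap.opNorm_le_bound _ zero_le_one fun w => ?_
    rw [hfd, norm_div, one_mul, Real.norm_of_nonneg (Real.sqrt_nonneg _),
      div_le_iff₀ (Real.sqrt_pos.2 (hpos y)), mul_comm]
    refine (norm_inner_le_norm y w).trans ?_
    refine mul_le_mul_of_nonneg_right ?_ (norm_nonneg _)
    refine Real.le_sqrt_of_sq_le ?_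
    nlinarith [sq_nonneg δ]
  have key := h.comp_contDiff hf hg hcd 1 hb
  simp only [hfd] at key
  exact key

end

end Vale.Agent.P363.R.Sob
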