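import Vale.Agent.P363.R.Sob.Basic

/-! Sobolev toolkit S1 (uniqueness), S2 (classical derivatives), S3 (closedness), S4 (product with
a smooth function), S12 (linear change of variables). -/

namespace Vale.Agent.P363.R.Sob

open MeasureTheory Filter Topology
open scoped ContDiff ENNReal

set_option linter.unusedSectionVars false

noncomputable section

variable {E : Type*} [NormedAddCommGroup E] [NormedSpace ℝ E] [FiniteDimensional ℝ E]
  [MeasurableSpace E] [BorelSpace E]
variable {F : Type*} [NormedAddCommGroup F] [NormedSpace ℝ F] [CompleteSpace F]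
variable {μ : Measure E} [μ.IsAddHaarMeasure] {v : E}

/-- S1. uniqueness of the weak derivative -/
theorem IsWD.unique {f g g' : E → F} (h : IsWD μ v f g) (h' : IsWD μ v f g')
    (hg : LocallyIntegrable g μ) (hg' : LocallyIntegrable g' μ) : g =ᵐ[μ] g' := by
  refine ae_eq_of_integral_contDiff_smul_eq hg hg' fun φ hφ hc => ?_
  have h1 := h φ ⟨hφ, hc⟩
  have h2 := h' φ ⟨hφ, hc⟩
  rw [h1] at h2
  exact neg_injective h2

/-- S2. classical derivatives are weak derivatives -/
theorem isWD_of_differentiable {f : E → F} {g : E → F}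
    (hf : Continuous f) (hd : ∀ x, HasLineDerivAt ℝ f (g x) x v)
    (hg : LocallyIntegrable g μ) : IsWD μ v f g := by
  intro φ hφ
  have hfl : LocallyIntegrable f μ := hf.locallyIntegrable
  have key := integral_bilinear_hasLineDerivAt_right_eq_neg_left_of_integrable (μ := μ) (v := v)
    (B := ContinuousLinearMap.lsmul ℝ ℝ) (f := φ) (f' := fun x => fderiv ℝ φ x v)
    (g := f) (g' := g)
    (by simpa using (hφ.fderiv v).integrable_smul hfl)
    (by simpa using hφ.integrable_smul hg)
    (by simpa using hφ.integrable_smul hfl)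
    (fun x _ => (hφ.differentiable x).hasFDerivAt.hasLineDerivAt v)
    (fun x _ => hd x)
  simp only [ContinuousLinearMap.lsmul_apply] at key
  rw [key, neg_neg]

/-- a test function is in every `Lᵖ` -/
theorem Test.memLp {φ : E → ℝ} (h : Test φ) (p : ℝ≥0∞) : MemLp φ p μ :=
  h.continuous.memLp_of_hasCompactSupport h.2

/-- convergence of the integral of `φ • fₙ` under `L²` convergence -/
theorem tendsto_integral_test_smul {ι : Type*} {l : Filter ι} {f : E → F} {fn : ι → E → F}
    {φ : E → ℝ} (hφ : Test φ) (hfn : ∀ n, MemLp (fn n) 2 μ) (hf : MemLp f 2 μ)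
    (cf : Tendsto (fun n => eLpNorm (fn n - f) 2 μ) l (𝓝 0)) :
    Tendsto (fun n => ∫ x, φ x • fn n x ∂μ) l (𝓝 (∫ x, φ x • f x ∂μ)) := by
  have hm : ∀ n, MemLp (fn n - f) 2 μ := fun n => (hfn n).sub hf
  refine tendsto_integral_of_L1 (fun x => φ x • f x)
    (hφ.integrable_smul (hf.locallyIntegrable (by norm_num))).1
    (Eventually.of_forall fun n =>
      hφ.integrable_smul ((hfn n).locallyIntegrable (by norm_num))) ?_
  have hb : ∀ n, ∫⁻ x, ‖φ x • fn n x - φ x • f x‖ₑ ∂μ ≤
      eLpNorm φ 2 μ * eLpNorm (fn n - f) 2 μ := by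
    intro n
    have e : (fun x => φ x • fn n x - φ x • f x) = φ • (fn n - f) := by
      funext x; simp [smul_sub]
    have h1 := eLpNorm_smul_le_mul_eLpNorm (p := 2) (q := 2) (r := 1) (hm n).1
      (hφ.memLp (μ := μ) 2).1
    rw [← e, eLpNorm_one_eq_lintegral_enorm] at h1
    exact h1
  have h0 : Tendsto (fun n => eLpNorm φ 2 μ * eLpNorm (fn n - f) 2 μ) l (𝓝 0) := by
    have := ENNReal.Tendsto.const_mul (a := eLpNorm φ 2 μ) cf (Or.inr (hφ.memLp (μ := μ) 2).2.ne)
    simpa using this
  exact tendsto_of_tendsto_of_tendsto_of_le_of_le tendsto_const_nhds h0 (fun _ => zero_le) hb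

/-- S3. closedness under `L²` limits (sequences along a filter) -/
theorem IsWD.of_tendsto {ι : Type*} {l : Filter ι} [l.NeBot] {f g : E → F} {fn gn : ι → E → F}
    (h : ∀ᶠ n in l, IsWD μ v (fn n) (gn n))
    (hfn : ∀ n, MemLp (fn n) 2 μ) (hgn : ∀ n, MemLp (gn n) 2 μ)
    (hf : MemLp f 2 μ) (hg : MemLp g 2 μ)
    (cf : Tendsto (fun n => eLpNorm (fn n - f) 2 μ) l (𝓝 0))
    (cg : Tendsto (fun n => eLpNorm (gn n - g) 2 μ) l (𝓝 0)) : IsWD μ v f g := by
  intro φ hφ
  have t1 := tendsto_integral_test_smul (hφ.fderiv v) hfn hf cf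
  have t2 := (tendsto_integral_test_smul hφ hgn hg cg).neg
  have e : ∀ᶠ n in l, ∫ x, (fderiv ℝ φ x v) • fn n x ∂μ = - ∫ x, φ x • gn n x ∂μ :=
    h.mono fun n hn => hn φ hφ
  exact tendsto_nhds_unique (t1.congr' e) t2

/-- S4. product with a smooth function -/
theorem IsWD.smooth_smul {f g : E → F} {ψ : E → ℝ} (h : IsWD μ v f g) (hψ : ContDiff ℝ ∞ ψ)
    (hf : LocallyIntegrable f μ) (hg : LocallyIntegrable g μ) :
    IsWD μ v (fun x => ψ x • f x) (fun x => (fderiv ℝ ψ x v) • f x + ψ x • g x) := by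
  intro φ hφ
  have hψd : Differentiable ℝ ψ := hψ.differentiable (by simp)
  have hψ' : ContDiff ℝ ∞ (fun x => fderiv ℝ ψ x v) :=
    (hψ.fderiv_right (by simp)).clm_apply contDiff_const
  have ht := h _ (hφ.mul hψ)
  have e1 : ∀ x, (fderiv ℝ (fun x => φ x * ψ x) x v) • f x =
      (fderiv ℝ φ x v) • ψ x • f x + φ x • (fderiv ℝ ψ x v) • f x := by
    intro x
    rw [fderiv_fun_mul (hφ.differentiable x) (hψd x)]
    simp only [add_apply, smul_apply, smul_eq_mul,
      add_smul, smul_smul]
    rw [add_comm, mul_comm (ψ x)]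
  have i1 : Integrable (fun x => (fderiv ℝ φ x v) • ψ x • f x) μ := by
    have := ((hφ.fderiv v).mul hψ).integrable_smul hf
    simpa only [mul_smul] using this
  have i2 : Integrable (fun x => φ x • (fderiv ℝ ψ x v) • f x) μ := by
    have := (hφ.mul hψ').integrable_smul hf
    simpa only [mul_smul] using this
  have i3 : Integrable (fun x => φ x • ψ x • g x) μ := by
    have := (hφ.mul hψ).integrable_smul hg
    simpa only [mul_smul] using this
  simp only [e1] at ht
  rw [integral_add i1 i2] at ht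
  simp only [mul_smul] at ht
  simp only [smul_add]
  rw [integral_add i2 i3, neg_add, ← ht]
  abel

/-- S12. change of variables by a linear equivalence -/
theorem IsWD.comp_linear {f g : E → F} (A : E ≃L[ℝ] E) (h : IsWD μ v f g) :
    IsWD μ (A.symm v) (fun x => f (A x)) (fun x => g (A x)) := by
  intro φ hφ
  have hdet : LinearMap.det (A : E →ₗ[ℝ] E) ≠ 0 := by
    have := LinearEquiv.isUnit_det' A.toLinearEquiv
    exact this.ne_zero
  set c : ℝ≥0∞ := ENNReal.ofReal |(LinearMap.det (A : E →ₗ[ℝ] E))⁻¹| with hc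
  have hmap : Measure.map (fun x => A x) μ = c • μ :=
    Measure.map_linearMap_addHaar_eq_smul_addHaar μ hdet
  have hemb : MeasurableEmbedding (fun x => A x) := A.toHomeomorph.measurableEmbedding
  have key : ∀ u : E → F, ∫ x, u (A x) ∂μ = c.toReal • ∫ y, u y ∂μ := by
    intro u
    rw [← hemb.integral_map u, hmap, integral_smul_measure]
  set φ' : E → ℝ := fun y => φ (A.symm y) with hφ'
  have hT : Test φ' := by
    refine ⟨hφ.contDiff.comp A.symm.contDiff, ?_⟩
    exact hφ.2.comp_homeomorph A.symm.toHomeomorph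
  have hd : ∀ x, fderiv ℝ φ' (A x) v = fderiv ℝ φ x (A.symm v) := by
    intro x
    have h1 : HasFDerivAt φ' ((fderiv ℝ φ (A.symm (A x))).comp
        (A.symm : E →L[ℝ] E)) (A x) :=
      (hφ.differentiable _).hasFDerivAt.comp (A x) A.symm.hasFDerivAt
    rw [h1.fderiv]
    simp
  have h1 := key (fun y => (fderiv ℝ φ' y v) • f y)
  have h2 := key (fun y => φ' y • g y)
  simp only [hd] at h1
  simp only [hφ', ContinuousLinearEquiv.symm_apply_apply] at h2
  rw [h1, h2, h φ' hT, smul_neg]

end

end Vale.Agent.P363.R.Sob
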