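import Vale.Agent.P363.Stmt

/-! Sobolev toolkit, part 1: directional weak derivatives on a finite-dimensional normed space `E`
with a Haar measure `μ`, for functions with values in a Banach space `F`. -/

namespace Vale.Agent.P363.R.Sob

open MeasureTheory Filter Topology
open scoped ContDiff ENNReal

set_option linter.unusedSectionVars false

noncomputable section

variable {E : Type*} [NormedAddCommGroup E] [NormedSpace ℝ E] [FiniteDimensional ℝ E]
  [MeasurableSpace E] [BorelSpace E]
variable {F : Type*} [NormedAddCommGroup F] [NormedSpace ℝ F]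

/-- Real test functions. -/
def Test (φ : E → ℝ) : Prop := ContDiff ℝ ∞ φ ∧ HasCompactSupport φ

/-- `g` is the weak derivative of `f` in direction `v`. -/
def IsWD (μ : Measure E) (v : E) (f g : E → F) : Prop :=
  ∀ φ : E → ℝ, Test φ → ∫ x, (fderiv ℝ φ x v) • f x ∂μ = - ∫ x, φ x • g x ∂μ

variable {μ : Measure E} [μ.IsAddHaarMeasure] {v : E} {f g f' g' : E → F} {φ ψ : E → ℝ}

/-! ### test functions -/

theorem Test.contDiff (h : Test φ) : ContDiff ℝ ∞ φ := h.1

theorem Test.hasCompactSupport (h : Test φ) : HasCompactSupport φ := h.2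

theorem Test.continuous (h : Test φ) : Continuous φ := h.1.continuous

theorem Test.differentiable (h : Test φ) : Differentiable ℝ φ := h.1.differentiable (by simp)

/-- the directional derivative of a test function is a test function. -/
theorem Test.fderiv (h : Test φ) (v : E) : Test (fun x => fderiv ℝ φ x v) := by
  refine ⟨?_, h.2.fderiv_apply (𝕜 := ℝ) v⟩
  have h1 : ContDiff ℝ ∞ (_root_.fderiv ℝ φ) := h.1.fderiv_right (by simp)
  exact h1.clm_apply contDiff_const

theorem Test.mul (h : Test φ) (hψ : ContDiff ℝ ∞ ψ) : Test (fun x => φ x * ψ x) :=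
  ⟨h.1.mul hψ, h.2.mul_right⟩

theorem Test.mul' (hψ : ContDiff ℝ ∞ ψ) (h : Test φ) : Test (fun x => ψ x * φ x) :=
  ⟨hψ.mul h.1, h.2.mul_left⟩

theorem Test.integrable_smul (h : Test φ) (hf : LocallyIntegrable f μ) :
    Integrable (fun x => φ x • f x) μ :=
  hf.integrable_smul_left_of_hasCompactSupport h.continuous h.2

/-! ### elementary algebra -/

theorem IsWD.congr (h : IsWD μ v f g) (hf : f =ᵐ[μ] f') (hg : g =ᵐ[μ] g') : IsWD μ v f' g' := by
  intro φ hφ
  have e1 : ∫ x, (fderiv ℝ φ x v) • f' x ∂μ = ∫ x, (fderiv ℝ φ x v) • f x ∂μ :=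
    integral_congr_ae (hf.mono fun x hx => by simp only [hx])
  have e2 : ∫ x, φ x • g' x ∂μ = ∫ x, φ x • g x ∂μ :=
    integral_congr_ae (hg.mono fun x hx => by simp only [hx])
  rw [e1, e2, h φ hφ]

theorem isWD_zero : IsWD μ v (fun _ => (0 : F)) (fun _ => 0) := by
  intro φ _; simp

theorem IsWD.add (h : IsWD μ v f g) (h' : IsWD μ v f' g') (hf : LocallyIntegrable f μ)
    (hg : LocallyIntegrable g μ) (hf' : LocallyIntegrable f' μ) (hg' : LocallyIntegrable g' μ) :
    IsWD μ v (fun x => f x + f' x) (fun x => g x + g' x) := by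
  intro φ hφ
  simp only [smul_add]
  rw [integral_add ((hφ.fderiv v).integrable_smul hf) ((hφ.fderiv v).integrable_smul hf'),
    integral_add (hφ.integrable_smul hg) (hφ.integrable_smul hg'), h φ hφ, h' φ hφ]
  abel

theorem IsWD.const_smul {𝕜 : Type*} [NormedField 𝕜] [NormedSpace 𝕜 F]
    [SMulCommClass ℝ 𝕜 F] (h : IsWD μ v f g) (c : 𝕜) :
    IsWD μ v (fun x => c • f x) (fun x => c • g x) := by
  intro φ hφ
  have e1 : ∀ x, (fderiv ℝ φ x v) • c • f x = c • ((fderiv ℝ φ x v) • f x) := fun x =>
    smul_comm _ _ _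
  have e2 : ∀ x, φ x • c • g x = c • (φ x • g x) := fun x => smul_comm _ _ _
  simp only [e1, e2, integral_smul]
  rw [h φ hφ, smul_neg]

theorem IsWD.neg (h : IsWD μ v f g) : IsWD μ v (fun x => -f x) (fun x => -g x) := by
  have := h.const_smul (-1 : ℝ)
  simpa using this

theorem IsWD.sub (h : IsWD μ v f g) (h' : IsWD μ v f' g') (hf : LocallyIntegrable f μ)
    (hg : LocallyIntegrable g μ) (hf' : LocallyIntegrable f' μ) (hg' : LocallyIntegrable g' μ) :
    IsWD μ v (fun x => f x - f' x) (fun x => g x - g' x) := by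
  simp only [sub_eq_add_neg]
  exact h.add h'.neg hf hg hf'.neg hg'.neg

/-- composition with a continuous linear map on the values. -/
theorem IsWD.clm_comp {G : Type*} [NormedAddCommGroup G] [NormedSpace ℝ G] [CompleteSpace F]
    [CompleteSpace G] (L : F →L[ℝ] G) (h : IsWD μ v f g)
    (hf : ∀ φ : E → ℝ, Test φ → Integrable (fun x => φ x • f x) μ)
    (hg : ∀ φ : E → ℝ, Test φ → Integrable (fun x => φ x • g x) μ) :
    IsWD μ v (fun x => L (f x)) (fun x => L (g x)) := by
  intro φ hφ
  have e1 := L.integral_comp_comm (hf _ (hφ.fderiv v))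
  have e2 := L.integral_comp_comm (hg _ hφ)
  simp only [map_smul] at e1 e2
  rw [e1, e2, h φ hφ, map_neg]

end

end Vale.Agent.P363.R.Sob
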