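import Vale.Agent.P363.R.Sob.Basic

/-! Mollification: derivatives and `L^p` convergence. -/

namespace Vale.Agent.P363.R.Sob

open MeasureTheory Filter Topology
open scoped ContDiff ENNReal Convolution

set_option linter.unusedSectionVars false

noncomputable section

variable {E : Type*} [NormedAddCommGroup E] [NormedSpace ℝ E] [FiniteDimensional ℝ E]
  [MeasurableSpace E] [BorelSpace E]
variable {F : Type*} [NormedAddCommGroup F] [NormedSpace ℝ F] [CompleteSpace F]
variable {μ : Measure E} [μ.IsAddHaarMeasure] {v : E}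

/-- mollification by a bump function -/
def moll (μ : Measure E) (ρ : ContDiffBump (0 : E)) (f : E → F) : E → F :=
  (ρ.normed μ) ⋆[ContinuousLinearMap.lsmul ℝ ℝ, μ] f

theorem moll_apply (ρ : ContDiffBump (0 : E)) (f : E → F) (x : E) :
    moll μ ρ f x = ∫ t, ρ.normed μ t • f (x - t) ∂μ := rfl

theorem moll_contDiff (ρ : ContDiffBump (0 : E)) {f : E → F} (hf : LocallyIntegrable f μ) :
    ContDiff ℝ ∞ (moll μ ρ f) :=
  ρ.hasCompactSupport_normed.contDiff_convolution_left _ ρ.contDiff_normed hf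

theorem moll_hasCompactSupport (ρ : ContDiffBump (0 : E)) {f : E → F}
    (hf : HasCompactSupport f) : HasCompactSupport (moll μ ρ f) :=
  HasCompactSupport.convolution _ ρ.hasCompactSupport_normed hf

theorem moll_apply' (ρ : ContDiffBump (0 : E)) (f : E → F) (x : E) :
    moll μ ρ f x = ∫ s, ρ.normed μ (x - s) • f s ∂μ := by
  rw [moll_apply]
  rw [← integral_sub_left_eq_self (fun s => ρ.normed μ (x - s) • f s) μ x]
  simp

theorem test_normed_sub (ρ : ContDiffBump (0 : E)) (x : E) :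
    Test (fun s => ρ.normed μ (x - s)) := by
  refine ⟨ρ.contDiff_normed.comp (contDiff_const.sub contDiff_id), ?_⟩
  have h := ρ.hasCompactSupport_normed (μ := μ)
  exact h.comp_homeomorph ((Homeomorph.subLeft x))

/-- the directional derivative of the mollification is the mollification of the weak derivative -/
theorem fderiv_moll (ρ : ContDiffBump (0 : E)) {f g : E → F} (h : IsWD μ v f g)
    (hf : LocallyIntegrable f μ) (x : E) :
    fderiv ℝ (moll μ ρ f) x v = moll μ ρ g x := by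
  have h1 := (ρ.hasCompactSupport_normed (μ := μ)).hasFDerivAt_convolution_left
    (ContinuousLinearMap.lsmul ℝ ℝ) (ρ.contDiff_normed (n := 1)) hf x
  rw [moll, h1.fderiv]
  rw [convolution_def]
  have hint : Integrable (fun t => (ContinuousLinearMap.precompL E (ContinuousLinearMap.lsmul ℝ ℝ))
      (fderiv ℝ (ρ.normed μ) t) (f (x - t))) μ := by
    have := ((ρ.hasCompactSupport_normed (μ := μ)).fderiv ℝ).convolutionExists_left
      (ContinuousLinearMap.precompL E (ContinuousLinearMap.lsmul ℝ ℝ : ℝ →L[ℝ] F →L[ℝ] F))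
      ((ρ.contDiff_normed (n := 1)).continuous_fderiv (by simp)) hf x
    exact this
  rw [ContinuousLinearMap.integral_apply hint]
  simp only [ContinuousLinearMap.precompL_apply, ContinuousLinearMap.lsmul_apply]
  have e1 : ∫ t, (fderiv ℝ (ρ.normed μ) t v) • f (x - t) ∂μ
      = ∫ s, (fderiv ℝ (ρ.normed μ) (x - s) v) • f s ∂μ := by
    rw [← integral_sub_left_eq_self (fun s => (fderiv ℝ (ρ.normed μ) (x - s) v) • f s) μ x]
    simp
  rw [e1]
  have e2 := h _ (test_normed_sub (μ := μ) ρ x)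
  have e3 : ∀ s, fderiv ℝ (fun s => ρ.normed μ (x - s)) s v = - fderiv ℝ (ρ.normed μ) (x - s) v := by
    intro s
    have hd : HasFDerivAt (ρ.normed μ) (fderiv ℝ (ρ.normed μ) (x - s)) (x - s) :=
      ((ρ.contDiff_normed (n := 1)).differentiable (by simp) _).hasFDerivAt
    have := hd.comp s ((hasFDerivAt_const x s).sub (hasFDerivAt_id s))
    have e4 : (fun s => ρ.normed μ (x - s)) = (ρ.normed μ) ∘ (fun s => x - s) := rfl
    rw [e4]
    rw [HasFDerivAt.fderiv this]
    simp
  simp only [e3, neg_smul, integral_neg, neg_inj] at e2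
  rw [e2, moll_apply']

/-- continuity of translations in `L^p` -/
theorem tendsto_translate {p : ℝ≥0∞} [Fact (1 ≤ p)] (hp : p ≠ ⊤) {f : E → F} (hf : MemLp f p μ) :
    Tendsto (fun t : E => eLpNorm (fun x => f (x - t) - f x) p μ) (𝓝 0) (𝓝 0) := by
  let g : E → C(E, E) := fun t => ⟨fun x => x - t, by fun_prop⟩
  have hg : Continuous g := ContinuousMap.continuous_of_continuous_uncurry _ (by
    show Continuous fun q : E × E => q.2 - q.1
    fun_prop)
  have hgm : ∀ t, MeasurePreserving (g t) μ μ := fun t => measurePreserving_sub_right μ t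
  have hc : Continuous (fun t => Lp.compMeasurePreserving (g t) (hgm t) (hf.toLp f)) :=
    Continuous.compMeasurePreservingLp continuous_const hg hgm hp
  have h0 := hc.tendsto 0
  rw [tendsto_iff_edist_tendsto_0] at h0
  refine h0.congr fun t => ?_
  have e0 : Lp.compMeasurePreserving (g 0) (hgm 0) (hf.toLp f) = hf.toLp f := by
    apply Lp.ext
    refine (Lp.coeFn_compMeasurePreserving _ (hgm 0)).trans ?_
    have : (g 0 : E → E) = id := by ext x; simp [g]
    rw [this]; rfl
  rw [e0, Lp.edist_def]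
  apply eLpNorm_congr_ae
  have h1 := Lp.coeFn_compMeasurePreserving (hf.toLp f) (hgm t)
  have h2 := (hgm t).quasiMeasurePreserving.ae_eq_comp hf.coeFn_toLp
  filter_upwards [h1, h2, hf.coeFn_toLp] with x h1 h2 h3
  simp only [Pi.sub_apply]
  rw [h1, h3, h2]
  rfl

theorem moll_congr_ae (ρ : ContDiffBump (0 : E)) {f f' : E → F} (h : f =ᵐ[μ] f') :
    moll μ ρ f = moll μ ρ f' := by
  ext x
  rw [moll_apply', moll_apply']
  exact integral_congr_ae (h.mono fun s hs => by simp only [hs])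

theorem eLpNorm_moll_sub_le_aux {p : ℝ≥0∞} (hp1 : 1 ≤ p) (hp : p ≠ ⊤) (ρ : ContDiffBump (0 : E))
    {f : E → F} (hf : MemLp f p μ) (hm : StronglyMeasurable f) {C : ℝ≥0∞}
    (hC : ∀ t ∈ Metric.ball (0 : E) ρ.rOut, eLpNorm (fun x => f (x - t) - f x) p μ ≤ C) :
    eLpNorm (moll μ ρ f - f) p μ ≤ C := by
  have hp0 : p ≠ 0 := (one_pos.trans_le hp1).ne'
  set q := p.toReal with hq
  have hq1 : 1 ≤ q := by
    rw [hq, ← ENNReal.toReal_one]; exact ENNReal.toReal_mono hp hp1
  have hq0 : 0 < q := by linarith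
  set w : E → ℝ≥0∞ := fun t => ENNReal.ofReal (ρ.normed μ t) with hw
  have hwm : Measurable w := (ρ.continuous_normed.measurable).ennreal_ofReal
  set ν := μ.withDensity w with hν
  have hνp : IsProbabilityMeasure ν := by
    constructor
    rw [hν, withDensity_apply _ MeasurableSet.univ, Measure.restrict_univ, hw,
      ← ofReal_integral_eq_lintegral_ofReal ρ.integrable_normed
        (Eventually.of_forall fun x => ρ.nonneg_normed x), ρ.integral_normed, ENNReal.ofReal_one]
  have hloc : LocallyIntegrable f μ := hf.locallyIntegrable hp1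
  have hsm : StronglyMeasurable (fun z : E × E => f (z.1 - z.2) - f z.1) :=
    (hm.comp_measurable (measurable_fst.sub measurable_snd)).sub (hm.comp_measurable measurable_fst)
  -- pointwise bound
  have h1 : ∀ x, ‖(moll μ ρ f - f) x‖ₑ ≤ ∫⁻ t, ‖f (x - t) - f x‖ₑ ∂ν := by
    intro x
    have hmx : Measurable (fun t => ‖f (x - t) - f x‖ₑ) :=
      (hsm.comp_measurable (measurable_const.prodMk measurable_id)).enorm
    have e0 : (moll μ ρ f - f) x = ∫ t, ρ.normed μ t • (f (x - t) - f x) ∂μ := by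
      have i1 : Integrable (fun t => ρ.normed μ t • f (x - t)) μ :=
        (ρ.hasCompactSupport_normed (μ := μ)).convolutionExists_left
          (ContinuousLinearMap.lsmul ℝ ℝ) ρ.continuous_normed hloc x
      have i2 : Integrable (fun t => ρ.normed μ t • f x) μ := ρ.integrable_normed.smul_const _
      simp only [smul_sub]
      rw [integral_sub i1 i2, integral_smul_const, ρ.integral_normed, one_smul]
      rfl
    rw [e0]
    refine (enorm_integral_le_lintegral_enorm _).trans (le_of_eq ?_)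
    rw [hν, lintegral_withDensity_eq_lintegral_mul₀ hwm.aemeasurable hmx.aemeasurable]
    refine lintegral_congr fun t => ?_
    rw [enorm_smul, Pi.mul_apply, hw]
    simp only
    rw [Real.enorm_of_nonneg (ρ.nonneg_normed t)]
  -- Jensen
  have h2 : ∀ x, (∫⁻ t, ‖f (x - t) - f x‖ₑ ∂ν) ^ q ≤ ∫⁻ t, ‖f (x - t) - f x‖ₑ ^ q ∂ν := by
    intro x
    have hs : StronglyMeasurable (fun t => f (x - t) - f x) :=
      hsm.comp_measurable (measurable_const.prodMk measurable_id)
    have := eLpNorm'_le_eLpNorm'_of_exponent_le (μ := ν) one_pos hq1 hs.aestronglyMeasurable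
    simp only [eLpNorm', ENNReal.rpow_one, div_one, one_div] at this
    have h3 := ENNReal.rpow_le_rpow this hq0.le
    rwa [← ENNReal.rpow_mul, inv_mul_cancel₀ hq0.ne', ENNReal.rpow_one] at h3
  -- swap
  have h3 : ∫⁻ x, ∫⁻ t, ‖f (x - t) - f x‖ₑ ^ q ∂ν ∂μ
      = ∫⁻ t, ∫⁻ x, ‖f (x - t) - f x‖ₑ ^ q ∂μ ∂ν := by
    rw [lintegral_lintegral_swap]
    exact (hsm.enorm.pow_const q).aemeasurable
  have h4 : ∀ᵐ t ∂ν, t ∈ Metric.ball (0 : E) ρ.rOut := by
    rw [hν, ae_withDensity_iff hwm]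
    refine Eventually.of_forall fun t ht => ?_
    by_contra hb
    apply ht
    have : ρ.normed μ t = 0 := by
      have h5 : t ∉ Function.support (ρ.normed μ) := by
        rw [ρ.support_normed_eq]; exact hb
      simpa using h5
    simp [hw, this]
  have h5 : ∫⁻ t, ∫⁻ x, ‖f (x - t) - f x‖ₑ ^ q ∂μ ∂ν ≤ C ^ q := by
    calc ∫⁻ t, ∫⁻ x, ‖f (x - t) - f x‖ₑ ^ q ∂μ ∂ν ≤ ∫⁻ _, C ^ q ∂ν := by
          refine lintegral_mono_ae (h4.mono fun t ht => ?_)
          have := hC t ht
          rw [eLpNorm_eq_lintegral_rpow_enorm_toReal hp0 hp, ← hq] at this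
          have h6 := ENNReal.rpow_le_rpow this hq0.le
          rwa [← ENNReal.rpow_mul, one_div, inv_mul_cancel₀ hq0.ne', ENNReal.rpow_one] at h6
      _ = C ^ q := by simp
  rw [eLpNorm_eq_lintegral_rpow_enorm_toReal hp0 hp, ← hq, one_div]
  calc (∫⁻ x, ‖(moll μ ρ f - f) x‖ₑ ^ q ∂μ) ^ q⁻¹
      ≤ (C ^ q) ^ q⁻¹ := by
        refine ENNReal.rpow_le_rpow ?_ (inv_nonneg.2 hq0.le)
        calc ∫⁻ x, ‖(moll μ ρ f - f) x‖ₑ ^ q ∂μ
            ≤ ∫⁻ x, ∫⁻ t, ‖f (x - t) - f x‖ₑ ^ q ∂ν ∂μ :=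
              lintegral_mono fun x => (ENNReal.rpow_le_rpow (h1 x) hq0.le).trans (h2 x)
          _ ≤ C ^ q := by rw [h3]; exact h5
    _ = C := by rw [← ENNReal.rpow_mul, mul_inv_cancel₀ hq0.ne', ENNReal.rpow_one]

theorem eLpNorm_moll_sub_le {p : ℝ≥0∞} (hp1 : 1 ≤ p) (hp : p ≠ ⊤) (ρ : ContDiffBump (0 : E))
    {f : E → F} (hf : MemLp f p μ) {C : ℝ≥0∞}
    (hC : ∀ t ∈ Metric.ball (0 : E) ρ.rOut, eLpNorm (fun x => f (x - t) - f x) p μ ≤ C) :
    eLpNorm (moll μ ρ f - f) p μ ≤ C := by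
  set f' := hf.1.mk f with hf'
  have hff : f =ᵐ[μ] f' := hf.1.ae_eq_mk
  have e1 : moll μ ρ f - f =ᵐ[μ] moll μ ρ f' - f' := by
    rw [moll_congr_ae ρ hff]
    exact hff.mono fun x hx => by simp only [Pi.sub_apply, hx]
  rw [eLpNorm_congr_ae e1]
  refine eLpNorm_moll_sub_le_aux hp1 hp ρ (hf.ae_eq hff) hf.1.stronglyMeasurable_mk
    fun t ht => ?_
  refine le_trans (le_of_eq (eLpNorm_congr_ae ?_)) (hC t ht)
  have h2 := (measurePreserving_sub_right μ t).quasiMeasurePreserving.ae_eq_comp hff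
  filter_upwards [hff, h2] with x hx h2
  simp only [Function.comp_apply] at h2
  rw [hx, h2]


/-- mollifications converge in `L^p` -/
theorem tendsto_moll {p : ℝ≥0∞} [Fact (1 ≤ p)] (hp : p ≠ ⊤) {ι : Type*} {l : Filter ι}
    {ρ : ι → ContDiffBump (0 : E)} (hρ : Tendsto (fun i => (ρ i).rOut) l (𝓝 0))
    {f : E → F} (hf : MemLp f p μ) :
    Tendsto (fun i => eLpNorm (moll μ (ρ i) f - f) p μ) l (𝓝 0) := by
  rw [ENNReal.tendsto_nhds_zero]
  intro ε hε
  have h1 := (ENNReal.tendsto_nhds_zero.1 (tendsto_translate hp hf)) ε hε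
  obtain ⟨δ, hδ, h2⟩ := Metric.eventually_nhds_iff_ball.1 h1
  have h3 : ∀ᶠ i in l, (ρ i).rOut < δ := hρ.eventually (gt_mem_nhds hδ)
  filter_upwards [h3] with i hi
  exact eLpNorm_moll_sub_le Fact.out hp (ρ i) hf
    fun t ht => h2 t (Metric.ball_subset_ball hi.le ht)

/-- a standard sequence of mollifiers -/
def stdBump (n : ℕ) : ContDiffBump (0 : E) :=
  ⟨1 / (2 * ((n : ℝ) + 1)), 1 / ((n : ℝ) + 1), by positivity, by
    apply one_div_lt_one_div_of_lt <;> nlinarith [n.cast_nonneg (α := ℝ)]⟩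

theorem tendsto_stdBump_rOut :
    Tendsto (fun n => (stdBump n : ContDiffBump (0 : E)).rOut) atTop (𝓝 0) :=
  tendsto_one_div_add_atTop_nhds_zero_nat

theorem tendsto_moll_std {p : ℝ≥0∞} [Fact (1 ≤ p)] (hp : p ≠ ⊤)
    {f : E → F} (hf : MemLp f p μ) :
    Tendsto (fun n => eLpNorm (moll μ (stdBump n) f - f) p μ) atTop (𝓝 0) :=
  tendsto_moll hp tendsto_stdBump_rOut hf

end

end Vale.Agent.P363.R.Sob
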