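import Vale.Agent.P363.R.Sob.S01
import Vale.Agent.P363.R.Sob.Mollify

/-! Local approximation by mollification for locally integrable functions with a locally
integrable weak derivative. -/

namespace Vale.Agent.P363.R.Sob

open MeasureTheory Filter Topology
open scoped ContDiff ENNReal

set_option linter.unusedSectionVars false

noncomputable section

variable {E : Type*} [NormedAddCommGroup E] [NormedSpace ℝ E] [FiniteDimensional ℝ E]
  [MeasurableSpace E] [BorelSpace E]
variable {F : Type*} [NormedAddCommGroup F] [NormedSpace ℝ F] [CompleteSpace F]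
variable {μ : Measure E} [μ.IsAddHaarMeasure] {v : E}

/-- mollification is local -/
theorem moll_congr_on (ρ : ContDiffBump (0 : E)) {f f' : E → F} {x : E}
    (h : ∀ y ∈ Metric.ball x ρ.rOut, f y = f' y) : moll μ ρ f x = moll μ ρ f' x := by
  rw [moll_apply, moll_apply]
  refine integral_congr_ae (Eventually.of_forall fun t => ?_)
  by_cases ht : t ∈ Metric.ball (0 : E) ρ.rOut
  · have : x - t ∈ Metric.ball x ρ.rOut := by
      rw [mem_ball_zero_iff] at ht
      rw [mem_ball_iff_norm]
      simpa using ht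
    simp only [h _ this]
  · have h5 : ρ.normed μ t = 0 := by
      have h5 : t ∉ Function.support (ρ.normed μ) := by
        rw [ρ.support_normed_eq]; exact ht
      simpa using h5
    simp only [h5, zero_smul]

/-- mollification keeps pointwise bounds -/
theorem norm_moll_le (ρ : ContDiffBump (0 : E)) {f : E → F} {C : ℝ}
    (h : ∀ᵐ x ∂μ, ‖f x‖ ≤ C) (x : E) : ‖moll μ ρ f x‖ ≤ C := by
  rw [moll_apply']
  have h1 : ∀ᵐ s ∂μ, ‖ρ.normed μ (x - s) • f s‖ ≤ ρ.normed μ (x - s) * C := by
    filter_upwards [h] with s hs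
    rw [norm_smul, Real.norm_of_nonneg (ρ.nonneg_normed _)]
    exact mul_le_mul_of_nonneg_left hs (ρ.nonneg_normed _)
  have hi : Integrable (fun s => ρ.normed μ (x - s)) μ :=
    (test_normed_sub (μ := μ) ρ x).continuous.integrable_of_hasCompactSupport
      (test_normed_sub (μ := μ) ρ x).2
  have h2 := norm_integral_le_of_norm_le (hi.mul_const C) h1
  refine h2.trans (le_of_eq ?_)
  rw [integral_mul_const, integral_sub_left_eq_self (fun s => ρ.normed μ s) μ x, ρ.integral_normed,
    one_mul]

theorem stdBump_rOut_le (n : ℕ) : (stdBump n : ContDiffBump (0 : E)).rOut ≤ 1 := by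
  show 1 / ((n : ℝ) + 1) ≤ 1
  rw [div_le_one (by positivity)]
  linarith [n.cast_nonneg (α := ℝ)]

/-- local `L¹` convergence of mollifications -/
theorem tendsto_moll_loc {f : E → F} (hf : LocallyIntegrable f μ) {K : Set E} (hK : IsCompact K) :
    Tendsto (fun n => eLpNorm (moll μ (stdBump n) f - f) 1 (μ.restrict K)) atTop (𝓝 0) := by
  have hK' : IsCompact (Metric.cthickening 1 K) := hK.cthickening
  set f' : E → F := (Metric.cthickening 1 K).indicator f with hf'
  have hfi : MemLp f' 1 μ := by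
    rw [memLp_one_iff_integrable, hf', integrable_indicator_iff hK'.measurableSet]
    exact hf.integrableOn_isCompact hK'
  haveI : Fact ((1 : ℝ≥0∞) ≤ 1) := ⟨le_rfl⟩
  have h1 := tendsto_moll_std (μ := μ) (p := 1) (by norm_num) hfi
  refine tendsto_of_tendsto_of_tendsto_of_le_of_le tendsto_const_nhds h1 (fun _ => zero_le)
    fun n => ?_
  refine le_trans (le_of_eq ?_) (eLpNorm_mono_measure _ (Measure.restrict_le_self (s := K)))
  refine eLpNorm_congr_ae ?_
  filter_upwards [ae_restrict_mem hK.measurableSet] with x hx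
  have hxK : x ∈ Metric.cthickening 1 K := Metric.self_subset_cthickening K hx
  have hb : ∀ y ∈ Metric.ball x (stdBump n : ContDiffBump (0 : E)).rOut, f y = f' y := by
    intro y hy
    have hy1 : dist y x < 1 := lt_of_lt_of_le (Metric.mem_ball.1 hy) (stdBump_rOut_le n)
    have : y ∈ Metric.cthickening 1 K :=
      Metric.mem_cthickening_of_dist_le y x 1 K hx hy1.le
    rw [hf', Set.indicator_of_mem this]
  simp only [Pi.sub_apply]
  rw [moll_congr_on _ hb, hf', Set.indicator_of_mem hxK]

/-- local approximation by smooth functions -/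
theorem IsWD.exists_local_approx {f g : E → F} (h : IsWD μ v f g)
    (hf : LocallyIntegrable f μ) (hg : LocallyIntegrable g μ) {K : Set E} (hK : IsCompact K) :
    ∃ fn : ℕ → E → F, (∀ n, ContDiff ℝ ∞ (fn n)) ∧
      Tendsto (fun n => eLpNorm (fn n - f) 1 (μ.restrict K)) atTop (𝓝 0) ∧
      Tendsto (fun n => eLpNorm ((fun x => fderiv ℝ (fn n) x v) - g) 1 (μ.restrict K))
        atTop (𝓝 0) ∧
      (∀ᵐ x ∂(μ.restrict K), Tendsto (fun n => fn n x) atTop (𝓝 (f x))) ∧
      (∀ C, (∀ᵐ x ∂μ, ‖f x‖ ≤ C) → ∀ n x, ‖fn n x‖ ≤ C) := by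
  have t1 := tendsto_moll_loc hf hK
  have t2 := tendsto_moll_loc hg hK
  have hm : TendstoInMeasure (μ.restrict K) (fun n => moll μ (stdBump n) f) atTop f :=
    tendstoInMeasure_of_tendsto_eLpNorm one_ne_zero
      (fun n => (moll_contDiff _ hf).continuous.aestronglyMeasurable)
      (hf.integrableOn_isCompact hK).1 t1
  obtain ⟨ns, hns, hae⟩ := hm.exists_seq_tendsto_ae
  refine ⟨fun n => moll μ (stdBump (ns n)) f, fun n => moll_contDiff _ hf,
    t1.comp hns.tendsto_atTop, ?_, hae, fun C hC n x => norm_moll_le _ hC x⟩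
  refine (t2.comp hns.tendsto_atTop).congr fun n => ?_
  have : (fun x => fderiv ℝ (moll μ (stdBump (ns n)) f) x v) = moll μ (stdBump (ns n)) g := by
    ext x; exact fderiv_moll _ h hf x
  simp only [Function.comp_apply, this]

/-- closedness of the weak derivative under local `L¹` convergence -/
theorem IsWD.of_tendsto_local {f g : E → F}
    (hf : LocallyIntegrable f μ) (hg : LocallyIntegrable g μ)
    (H : ∀ K : Set E, IsCompact K → ∃ fn gn : ℕ → E → F, (∀ n, IsWD μ v (fn n) (gn n)) ∧
      (∀ n, LocallyIntegrable (fn n) μ) ∧ (∀ n, LocallyIntegrable (gn n) μ) ∧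
      Tendsto (fun n => eLpNorm (fn n - f) 1 (μ.restrict K)) atTop (𝓝 0) ∧
      Tendsto (fun n => eLpNorm (gn n - g) 1 (μ.restrict K)) atTop (𝓝 0)) :
    IsWD μ v f g := by
  intro φ hφ
  obtain ⟨fn, gn, W, lf, lg, cf, cg⟩ := H (tsupport φ) hφ.2.isCompact
  have aux : ∀ {ψ : E → ℝ} {u : E → F} {un : ℕ → E → F}, Test ψ → tsupport ψ ⊆ tsupport φ →
      LocallyIntegrable u μ → (∀ n, LocallyIntegrable (un n) μ) →
      Tendsto (fun n => eLpNorm (un n - u) 1 (μ.restrict (tsupport φ))) atTop (𝓝 0) →
      Tendsto (fun n => ∫ x, ψ x • un n x ∂μ) atTop (𝓝 (∫ x, ψ x • u x ∂μ)) := by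
    intro ψ u un hψ hs hu hun c
    obtain ⟨C, hC⟩ := hψ.2.exists_bound_of_continuous hψ.continuous
    have hC0 : 0 ≤ C := (norm_nonneg _).trans (hC 0)
    refine tendsto_integral_of_L1 (fun x => ψ x • u x) (hψ.integrable_smul hu).1
      (Eventually.of_forall fun n => hψ.integrable_smul (hun n)) ?_
    have hb : ∀ n, ∫⁻ x, ‖ψ x • un n x - ψ x • u x‖ₑ ∂μ ≤
        ENNReal.ofReal C * eLpNorm (un n - u) 1 (μ.restrict (tsupport φ)) := by
      intro n
      have e1 : ∫⁻ x, ‖ψ x • un n x - ψ x • u x‖ₑ ∂μ =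
          ∫⁻ x in tsupport φ, ‖ψ x • un n x - ψ x • u x‖ₑ ∂μ := by
        rw [setLIntegral_eq_of_support_subset]
        intro x hx
        by_contra hxs
        apply hx
        have : ψ x = 0 := image_eq_zero_of_notMem_tsupport fun h' => hxs (hs h')
        simp [this]
      rw [e1, eLpNorm_one_eq_lintegral_enorm, ← lintegral_const_mul' _ _ ENNReal.ofReal_ne_top]
      refine lintegral_mono fun x => ?_
      rw [← smul_sub, enorm_smul]
      refine mul_le_mul_left ?_ _
      rw [← ofReal_norm_eq_enorm]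
      exact ENNReal.ofReal_le_ofReal (hC x)
    have h0 := ENNReal.Tendsto.const_mul (a := ENNReal.ofReal C) c (Or.inr ENNReal.ofReal_ne_top)
    rw [mul_zero] at h0
    exact tendsto_of_tendsto_of_tendsto_of_le_of_le tendsto_const_nhds h0 (fun _ => zero_le) hb
  have s1 : tsupport (fun x => fderiv ℝ φ x v) ⊆ tsupport φ := by
    refine closure_minimal (fun x hx => ?_) (isClosed_tsupport φ)
    refine support_fderiv_subset ℝ fun h0 => hx ?_
    simp [h0]
  have t1 := aux (hφ.fderiv v) s1 hf lf cf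
  have t2 := (aux hφ subset_rfl hg lg cg).neg
  exact tendsto_nhds_unique t1 (t2.congr fun n => (W n φ hφ).symm)

end

end Vale.Agent.P363.R.Sob
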