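import Vale.Agent.P363.R.Sob.Basic

/-! Sobolev toolkit: STATEMENTS of the toolkit (to be proved in separate files, then this file
disappears). All integrals are over `E` with Haar measure `μ`. -/

namespace Vale.Agent.P363.R.Sob

open MeasureTheory Filter Topology
open scoped ContDiff ENNReal Convolution

set_option linter.unusedSectionVars false

noncomputable section

variable {E : Type*} [NormedAddCommGroup E] [NormedSpace ℝ E] [FiniteDimensional ℝ E]
  [MeasurableSpace E] [BorelSpace E]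
variable {F : Type*} [NormedAddCommGroup F] [NormedSpace ℝ F] [CompleteSpace F]
variable {μ : Measure E} [μ.IsAddHaarMeasure] {v : E}

/-- S1. uniqueness of the weak derivative -/
theorem IsWD.unique {f g g' : E → F} (h : IsWD μ v f g) (h' : IsWD μ v f g')
    (hg : LocallyIntegrable g μ) (hg' : LocallyIntegrable g' μ) : g =ᵐ[μ] g' := sorry

/-- S2. classical derivatives are weak derivatives -/
theorem isWD_of_differentiable {f : E → F} {g : E → F}
    (hf : Continuous f) (hd : ∀ x, HasLineDerivAt ℝ f (g x) x v)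
    (hg : LocallyIntegrable g μ) : IsWD μ v f g := sorry

/-- S3. closedness under `L²` limits (sequences along a filter) -/
theorem IsWD.of_tendsto {ι : Type*} {l : Filter ι} [l.NeBot] {f g : E → F} {fn gn : ι → E → F}
    (h : ∀ᶠ n in l, IsWD μ v (fn n) (gn n))
    (hfn : ∀ n, MemLp (fn n) 2 μ) (hgn : ∀ n, MemLp (gn n) 2 μ)
    (hf : MemLp f 2 μ) (hg : MemLp g 2 μ)
    (cf : Tendsto (fun n => eLpNorm (fn n - f) 2 μ) l (𝓝 0))
    (cg : Tendsto (fun n => eLpNorm (gn n - g) 2 μ) l (𝓝 0)) : IsWD μ v f g := sorry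

/-- S4. product with a smooth function -/
theorem IsWD.smooth_smul {f g : E → F} {ψ : E → ℝ} (h : IsWD μ v f g) (hψ : ContDiff ℝ ∞ ψ)
    (hf : LocallyIntegrable f μ) (hg : LocallyIntegrable g μ) :
    IsWD μ v (fun x => ψ x • f x) (fun x => (fderiv ℝ ψ x v) • f x + ψ x • g x) := sorry

/-- S5. density: an `L²` function with finitely many `L²` weak directional derivatives is the
`L²` limit, together with these derivatives, of smooth compactly supported functions. -/
theorem exists_test_approx {ι : Type*} [Finite ι] {b : ι → E} {f : E → F} {g : ι → E → F}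
    (hf : MemLp f 2 μ) (hg : ∀ i, MemLp (g i) 2 μ) (h : ∀ i, IsWD μ (b i) f (g i)) :
    ∃ fn : ℕ → E → F, (∀ n, ContDiff ℝ ∞ (fn n)) ∧ (∀ n, HasCompactSupport (fn n)) ∧
      Tendsto (fun n => eLpNorm (fn n - f) 2 μ) atTop (𝓝 0) ∧
      ∀ i, Tendsto (fun n => eLpNorm ((fun x => fderiv ℝ (fn n) x (b i)) - g i) 2 μ) atTop (𝓝 0) :=
  sorry

/-- S6. bilinear product rule: `f, h` with `L²` weak derivatives, `B` continuous bilinear. -/
theorem IsWD.bilin {F₁ F₂ G : Type*} [NormedAddCommGroup F₁] [NormedSpace ℝ F₁] [CompleteSpace F₁]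
    [NormedAddCommGroup F₂] [NormedSpace ℝ F₂] [CompleteSpace F₂]
    [NormedAddCommGroup G] [NormedSpace ℝ G] [CompleteSpace G]
    (B : F₁ →L[ℝ] F₂ →L[ℝ] G) {f f' : E → F₁} {h h' : E → F₂}
    (hf : MemLp f 2 μ) (hf' : MemLp f' 2 μ) (hh : MemLp h 2 μ) (hh' : MemLp h' 2 μ)
    (Wf : IsWD μ v f f') (Wh : IsWD μ v h h') :
    IsWD μ v (fun x => B (f x) (h x)) (fun x => B (f' x) (h x) + B (f x) (h' x)) := sorry

/-- S7. chain rule for real functions with a `C¹` function with bounded derivative -/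
theorem IsWD.comp {f g : E → ℝ} {Φ Φ' : ℝ → ℝ} (h : IsWD μ v f g)
    (hf : LocallyIntegrable f μ) (hg : LocallyIntegrable g μ)
    (hΦ : ∀ t, HasDerivAt Φ (Φ' t) t) (hc : Continuous Φ') (C : ℝ) (hC : ∀ t, |Φ' t| ≤ C) :
    IsWD μ v (fun x => Φ (f x)) (fun x => Φ' (f x) * g x) := sorry

/-- S8. positive part -/
theorem IsWD.pos_part {f g : E → ℝ} (h : IsWD μ v f g)
    (hf : LocallyIntegrable f μ) (hg : LocallyIntegrable g μ) :
    IsWD μ v (fun x => max (f x) 0) (fun x => if 0 < f x then g x else 0) := sorry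

/-- S9. the derivative vanishes a.e. on level sets -/
theorem IsWD.ae_eq_zero_on_level {f g : E → ℝ} (h : IsWD μ v f g)
    (hf : LocallyIntegrable f μ) (hg : LocallyIntegrable g μ) (c : ℝ) :
    ∀ᵐ x ∂μ, f x = c → g x = 0 := sorry

/-- S10. product of two bounded functions with locally integrable weak derivatives -/
theorem IsWD.mul_bdd {f g h k : E → ℝ} (Wf : IsWD μ v f g) (Wh : IsWD μ v h k)
    (hf : AEStronglyMeasurable f μ) (hh : AEStronglyMeasurable h μ)
    (hg : LocallyIntegrable g μ) (hk : LocallyIntegrable k μ)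
    (Cf Ch : ℝ) (bf : ∀ᵐ x ∂μ, |f x| ≤ Cf) (bh : ∀ᵐ x ∂μ, |h x| ≤ Ch) :
    IsWD μ v (fun x => f x * h x) (fun x => g x * h x + f x * k x) := sorry

/-- S11. regularised norm of a Hilbert space valued function: derivative of `√(‖f‖²+δ²)`. -/
theorem IsWD.sqrt_norm_sq {H : Type*} [NormedAddCommGroup H] [InnerProductSpace ℝ H]
    [CompleteSpace H] {f g : E → H} (h : IsWD μ v f g)
    (hf : LocallyIntegrable f μ) (hg : LocallyIntegrable g μ) (δ : ℝ) (hδ : 0 < δ) :
    IsWD μ v (fun x => Real.sqrt (‖f x‖ ^ 2 + δ ^ 2))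
      (fun x => inner ℝ (f x) (g x) / Real.sqrt (‖f x‖ ^ 2 + δ ^ 2)) := sorry

/-- S12. change of variables by a linear equivalence -/
theorem IsWD.comp_linear {f g : E → F} (A : E ≃L[ℝ] E) (h : IsWD μ v f g) :
    IsWD μ (A.symm v) (fun x => f (A x)) (fun x => g (A x)) := sorry

/-- S13. integration by parts against a function with weak derivative (global `H¹ × H¹`). -/
theorem IsWD.integral_bilin {F₁ F₂ G : Type*} [NormedAddCommGroup F₁] [NormedSpace ℝ F₁]
    [CompleteSpace F₁] [NormedAddCommGroup F₂] [NormedSpace ℝ F₂] [CompleteSpace F₂]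
    [NormedAddCommGroup G] [NormedSpace ℝ G] [CompleteSpace G]
    (B : F₁ →L[ℝ] F₂ →L[ℝ] G) {f f' : E → F₁} {h h' : E → F₂}
    (hf : MemLp f 2 μ) (hf' : MemLp f' 2 μ) (hh : MemLp h 2 μ) (hh' : MemLp h' 2 μ)
    (Wf : IsWD μ v f f') (Wh : IsWD μ v h h') :
    ∫ x, B (f' x) (h x) ∂μ = - ∫ x, B (f x) (h' x) ∂μ := sorry

/-- S14. locality / gluing: if `f = 0` a.e. on a neighbourhood of the boundary of `U`
(here: on an open set `V` with `closure U ⊆ U ∪ V`), then `1_U f` has weak derivative `1_U g`. -/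
theorem IsWD.indicator {f g : E → F} {U V : Set E} (h : IsWD μ v f g)
    (hf : LocallyIntegrable f μ) (hg : LocallyIntegrable g μ) (hU : IsOpen U) (hV : IsOpen V)
    (hUV : closure U ⊆ U ∪ V) (hz : ∀ᵐ x ∂μ, x ∈ V → f x = 0) :
    IsWD μ v (U.indicator f) (U.indicator g) := sorry

end

end Vale.Agent.P363.R.Sob
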